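import Vale.Agent.P254.EX.BM
import Vale.Agent.P254.AU.Near

/-!
P254: the strong isotropic constant conjecture for the bodies at a dimension-free distance from the
bodies which become unconditional after a few Steiner symmetrizations.
-/

open MeasureTheory Set Matrix

namespace Vale.Agent.P254.EX

open Unc Unc.FB AU

variable {n : ℕ}

theorem unc_bound (hn : 0 < n) {U K : Set (Fin n → ℝ)} (hU : IsConvexBody U)
    (hu : Uncond U) (hK : IsConvexBody K) (hKU : K ⊆ U)
    (hq : (1 - 1 / 10 ^ 24) ^ n * (volume U).toReal ≤ (volume K).toReal) :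
    (covMatrix K).det / (volume K).toReal ^ 2 ≤
      (1026 / 1000) ^ n * (((n : ℝ) + 1) / (8 * ((n : ℝ) + 2))) ^ n := by
  have hVK := volume_pos_of_body hK
  have hVU := volume_pos_of_body hU
  have hcore := core hU hu hK hKU hq
  have hdet := det_le_prod_mom hn hK
  have hbody := unc_body (uncr_all n) hU hu
  have hdU : (covMatrix U).det = ∏ k, mom U k := by
    rw [cov_diag hu, det_diagonal]
    rfl
  have h1 : (covMatrix K).det ≤ Real.exp (n * (245 / 10000)) * (covMatrix U).det := by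
    rw [hdU]
    exact hdet.trans hcore
  set V := (volume K).toReal with hVd
  set W := (volume U).toReal with hWd
  set q : ℝ := 1 - 1 / 10 ^ 24 with hqd
  have hq0 : 0 < q := by rw [hqd]; norm_num
  have hr : W / V ≤ (q⁻¹) ^ n := by
    rw [inv_pow, div_le_iff₀ hVK, inv_mul_eq_div, le_div_iff₀ (by positivity), mul_comm]
    exact hq
  have hr0 : 0 < W / V := div_pos hVU hVK
  have hdU0 : 0 ≤ (covMatrix U).det / W ^ 2 :=
    div_nonneg (covMatrix_posSemidef hU.2.1).det_nonneg (by positivity)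
  have h3 : (covMatrix K).det / V ^ 2 ≤
      Real.exp (n * (245 / 10000)) * (W / V) ^ 2 * ((covMatrix U).det / W ^ 2) := by
    rw [div_le_iff₀ (by positivity)]
    refine h1.trans (le_of_eq ?_)
    field_simp
  refine h3.trans ?_
  refine mul_le_mul ?_ hbody hdU0 (by positivity)
  calc Real.exp (n * (245 / 10000)) * (W / V) ^ 2
      ≤ Real.exp (n * (245 / 10000)) * ((q⁻¹) ^ n) ^ 2 := by
        gcongr
    _ = (Real.exp (245 / 10000) * (q⁻¹) ^ 2) ^ n := by
        rw [Real.exp_nat_mul, mul_pow, ← pow_mul, ← pow_mul, mul_comm n 2]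
    _ ≤ (1026 / 1000) ^ n := by
        refine pow_le_pow_left₀ (by positivity) ?_ n
        rw [hqd]
        exact exp_le

/-- pull back of a subset of an affine image -/
lemma pull {U K : Set (Fin n → ℝ)} (hU : IsConvexBody U) (hK : IsConvexBody K)
    {A : Matrix (Fin n) (Fin n) ℝ} (hA : A.det ≠ 0) {b : Fin n → ℝ} (hKU : K ⊆ aff A b '' U)
    {p : ℝ} (hq : p * (volume (aff A b '' U)).toReal ≤ (volume K).toReal) :
    ∃ K' : Set (Fin n → ℝ), IsConvexBody K' ∧ K' ⊆ U ∧ K = aff A b '' K' ∧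
      p * (volume U).toReal ≤ (volume K').toReal := by
  have hunit : IsUnit A.det := isUnit_iff_ne_zero.mpr hA
  have hu' : (A⁻¹).det ≠ 0 := by
    rw [det_nonsing_inv, Ring.inverse_eq_inv']
    exact inv_ne_zero hA
  set K' : Set (Fin n → ℝ) := aff A⁻¹ (-(A⁻¹ *ᵥ b)) '' K with hK'
  have hback : ∀ x, aff A⁻¹ (-(A⁻¹ *ᵥ b)) (aff A b x) = x := by
    intro x
    rw [aff_aff, nonsing_inv_mul _ hunit]
    simp [aff]
  have hforth : ∀ x, aff A b (aff A⁻¹ (-(A⁻¹ *ᵥ b)) x) = x := by
    intro x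
    rw [aff_aff, mul_nonsing_inv _ hunit]
    simp only [aff, mulVec_neg, mulVec_mulVec, mul_nonsing_inv _ hunit, one_mulVec]
    abel
  have e : K = aff A b '' K' := by
    rw [hK', ← image_comp]
    have : aff A b ∘ aff A⁻¹ (-(A⁻¹ *ᵥ b)) = id := by
      ext1 x
      exact hforth x
    rw [this, image_id]
  have hK'b : IsConvexBody K' := isConvexBody_aff_image hu' _ hK
  refine ⟨K', hK'b, ?_, e, ?_⟩
  · rintro _ ⟨x, hx, rfl⟩
    obtain ⟨u, hu1, rfl⟩ := hKU hx
    rw [hback]
    exact hu1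
  · have hdpos : 0 < |A.det| := abs_pos.mpr hA
    rw [e, volume_aff_image hA b hU.2.1.measurableSet,
      volume_aff_image hA b hK'b.2.1.measurableSet] at hq
    have h1 : |A.det| * (p * (volume U).toReal) ≤ |A.det| * (volume K').toReal := by
      calc _ = p * (|A.det| * (volume U).toReal) := by ring
        _ ≤ _ := hq
    exact le_of_mul_le_mul_left h1 hdpos

theorem alm_bound (hn : 0 < n) {q : ℕ} {U : Set (Fin n → ℝ)} (hU : Alm q U) :
    ∀ {K : Set (Fin n → ℝ)}, IsConvexBody K → K ⊆ U →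
      (1 - 1 / 10 ^ 24) ^ n * (volume U).toReal ≤ (volume K).toReal →
      (covMatrix K).det / (volume K).toReal ^ 2 ≤
        (((n : ℝ) + 1) * (n + 2) / 2) ^ q *
          ((1026 / 1000) ^ n * (((n : ℝ) + 1) / (8 * ((n : ℝ) + 2))) ^ n) := by
  induction hU with
  | unc hU hu =>
    intro K hK hKU hvol
    rw [pow_zero, one_mul]
    exact unc_bound hn hU hu hK hKU hvol
  | @aff q U A b hA hU ih =>
    intro K hK hKU hvol
    obtain ⟨K', hK', hsub, e, hv⟩ := pull hU.body hK hA hKU hvol
    have h := ih hK' hsub hv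
    have hV := volume_pos_of_body hK'
    have e2 : (covMatrix K).det / (volume K).toReal ^ 2 =
        (covMatrix K').det / (volume K').toReal ^ 2 := by
      rw [e, cov_aff_image hA b hK'.2.1 hV.ne', volume_aff_image hA b hK'.2.1.measurableSet,
        det_mul, det_mul, det_transpose, mul_pow, sq_abs]
      field_simp
    rw [e2]
    exact h
  | @ste q U hU j _ ih =>
    intro K hK hKU hvol
    obtain ⟨hKS, hvK⟩ := isConvexBody_St hK j
    obtain ⟨_, hvU⟩ := isConvexBody_St hU j
    have hsub : St j K ⊆ St j U := by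
      rintro x ⟨u, l, h1, h2, h3⟩
      exact ⟨u, l, hKU h1, hKU h2, h3⟩
    have h := ih hKS hsub (by rw [hvK, hvU]; exact hvol)
    rw [hvK] at h
    have h2 := det_cov_le_St hK j
    have hV := volume_pos_of_body hK
    have h3 : (covMatrix K).det / (volume K).toReal ^ 2 ≤
        (((n : ℝ) + 1) * (n + 2) / 2) * ((covMatrix (St j K)).det / (volume K).toReal ^ 2) := by
      rw [← mul_div_assoc]
      exact div_le_div_of_nonneg_right h2 (by positivity)
    refine h3.trans ?_
    have h4 := mul_le_mul_of_nonneg_left h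
      (show (0 : ℝ) ≤ ((n : ℝ) + 1) * (n + 2) / 2 by positivity)
    refine h4.trans (le_of_eq ?_)
    rw [pow_succ]
    ring

/-- `((n+1)(n+2)/2)^q (n+1)^(2n+1) 1.026^n < 8^n (n!)^2` if `40 q log (n+2) ≤ n`. -/
theorem ex_num (n q : ℕ) (hn : 2 ≤ n) (h : 40 * (q : ℝ) * Real.log ((n : ℝ) + 2) ≤ n) :
    (((n : ℝ) + 1) * (n + 2) / 2) ^ q * (((n : ℝ) + 1) ^ (2 * n + 1) * (1026 / 1000) ^ n) <
      8 ^ n * (n.factorial : ℝ) ^ 2 := by
  rcases Nat.eq_zero_or_pos q with rfl | hq
  · rw [pow_zero, one_mul]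
    exact pow_lt_fac hn
  have hq1 : (1 : ℝ) ≤ q := by exact_mod_cast hq
  have hn2 : (2 : ℝ) ≤ n := by exact_mod_cast hn
  have hn0 : (0 : ℝ) < n := by linarith
  have l2 := Real.log_two_gt_d9
  have hL : Real.log 2 + Real.log 2 ≤ Real.log ((n : ℝ) + 2) := by
    rw [← Real.log_mul (by norm_num) (by norm_num)]
    exact Real.log_le_log (by norm_num) (by linarith)
  have hn40 : (40 : ℝ) ≤ n := by nlinarith
  rw [← Real.log_lt_log_iff (by positivity) (by positivity)]
  rw [Real.log_mul (by positivity) (by positivity), Real.log_mul (by positivity) (by positivity),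
    Real.log_mul (by positivity) (by positivity), Real.log_pow, Real.log_pow, Real.log_pow,
    Real.log_pow, Real.log_pow]
  -- the loss
  have h1 : (q : ℝ) * Real.log (((n : ℝ) + 1) * (n + 2) / 2) ≤ n / 20 - Real.log 2 := by
    have h2 : Real.log (((n : ℝ) + 1) * (n + 2) / 2) ≤
        2 * Real.log ((n : ℝ) + 2) - Real.log 2 := by
      rw [Real.log_div (by positivity) (by norm_num), Real.log_mul (by positivity) (by positivity)]
      have := Real.log_le_log (x := (n : ℝ) + 1) (y := (n : ℝ) + 2) (by positivity) (by linarith)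
      linarith
    have h3 := mul_le_mul_of_nonneg_left h2 (by linarith : (0 : ℝ) ≤ q)
    have h4 : Real.log 2 ≤ q * Real.log 2 := le_mul_of_one_le_left (by linarith) hq1
    nlinarith
  -- Stirling
  have h5 := Stirling.le_log_factorial_stirling (n := n) (by omega)
  have h6 : Real.log ((n : ℝ) + 1) ≤ Real.log n + 1 / n := by
    have e : (n : ℝ) + 1 = n * (1 + 1 / n) := by field_simp
    have h7 := Real.log_le_sub_one_of_pos (x := 1 + 1 / (n : ℝ)) (by positivity)
    rw [e, Real.log_mul hn0.ne' (by positivity)]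
    linarith
  have h8 : (2 * (n : ℝ) + 1) * Real.log ((n : ℝ) + 1) ≤
      (2 * (n : ℝ) + 1) * Real.log n + (2 + 1 / n) := by
    have h9 := mul_le_mul_of_nonneg_left h6 (by positivity : (0 : ℝ) ≤ 2 * (n : ℝ) + 1)
    have e : (2 * (n : ℝ) + 1) * (Real.log n + 1 / n) =
        (2 * (n : ℝ) + 1) * Real.log n + (2 + 1 / n) := by
      field_simp
    rwa [e] at h9
  have h10 : Real.log (1026 / 1000 : ℝ) ≤ 26 / 1000 := by
    have := Real.log_le_sub_one_of_pos (x := (1026 / 1000 : ℝ)) (by norm_num)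
    linarith
  have h11 : (1 : ℝ) ≤ Real.log Real.pi := by
    rw [Real.le_log_iff_exp_le Real.pi_pos]
    have := Real.exp_one_lt_d9
    have := Real.pi_gt_three
    linarith
  have h12 : Real.log (2 * Real.pi) = Real.log 2 + Real.log Real.pi :=
    Real.log_mul (by norm_num) Real.pi_pos.ne'
  have h13 : Real.log 8 = 3 * Real.log 2 := by
    rw [show (8 : ℝ) = 2 ^ 3 by norm_num, Real.log_pow]
    norm_num
  have h14 : 1 / (n : ℝ) ≤ 1 / 40 := one_div_le_one_div_of_le (by norm_num) hn40
  have h15 : (n : ℝ) * Real.log (1026 / 1000) ≤ (n : ℝ) * (26 / 1000) :=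
    mul_le_mul_of_nonneg_left h10 (by positivity)
  rw [h13]
  push_cast
  rw [h12] at h5
  have h16 : (n : ℝ) * 0.6931471803 ≤ n * Real.log 2 :=
    mul_le_mul_of_nonneg_left l2.le hn0.le
  nlinarith

/-- The bodies nearly filling (with an exponentially small fraction missing) a body which becomes
unconditional after `q` Steiner symmetrizations. -/
theorem near_alm {q : ℕ} (hn : 1 ≤ n) {K U S : Set (Fin n → ℝ)}
    (hK : IsConvexBody K) (hS : IsSimplex S) (hU : Alm q U) (hKU : K ⊆ U)
    (hvol : min (79 / 80) ((1 - 1 / 10 ^ 24) ^ n) * (volume U).toReal ≤ (volume K).toReal)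
    (hq : 40 * (q : ℝ) * Real.log ((n : ℝ) + 2) ≤ n) :
    isoConst K ≤ isoConst S ∧ (isoConst K = isoConst S ↔ IsSimplex K) ∧
      (2 ≤ n → isoConst K < isoConst S) := by
  rcases min_choice (79 / 80 : ℝ) ((1 - 1 / 10 ^ 24) ^ n) with hm | hm
  · rw [hm] at hvol
    exact near_of_alm hn hK hS hU hKU hvol hq
  · rw [hm] at hvol
    rcases Nat.lt_or_ge n 2 with h2 | h2
    · have h1 : n = 1 := by omega
      subst h1
      have hKs := isSimplex_of_dim_one hK
      have e : isoConst K = isoConst S := by rw [isoConst_simplex hKs, isoConst_simplex hS]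
      exact ⟨e.le, ⟨fun _ => hKs, fun _ => e⟩, fun h => absurd h (by norm_num)⟩
    · have hlt : isoConst K < isoConst S := by
        refine lt_of_bound hn hK hS (alm_bound (by omega) hU hK hKU hvol) ?_
        have h1 := ex_num n q h2 hq
        rw [← mul_assoc, Sym.simpC_lt_iff]
        refine lt_of_eq_of_lt ?_ h1
        ring
      obtain ⟨h1, h2⟩ := conj_of_lt hS hlt
      exact ⟨h1, h2, fun _ => hlt⟩

/-- The bodies near a body which is symmetric with respect to the coordinate hyperplanes of the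
coordinates in `T`. -/
theorem near_sym (hn : 1 ≤ n) {K S : Set (Fin n → ℝ)} (hK : IsConvexBody K) (hS : IsSimplex S)
    (h : ∃ (A : Matrix (Fin n) (Fin n) ℝ) (b : Fin n → ℝ) (U : Set (Fin n → ℝ))
      (T : Finset (Fin n)), A.det ≠ 0 ∧ IsConvexBody U ∧
      (∀ x ∈ U, ∀ y : Fin n → ℝ, (∀ i ∈ T, |y i| = |x i|) → (∀ i, i ∉ T → y i = x i) → y ∈ U) ∧
      40 * ((n : ℝ) - T.card) * Real.log ((n : ℝ) + 2) ≤ n ∧
      ((K ⊆ (fun x => A *ᵥ x + b) '' U ∧
        min (79 / 80) ((1 - 1 / 10 ^ 24) ^ n) * (volume ((fun x => A *ᵥ x + b) '' U)).toReal ≤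
          (volume K).toReal) ∨
      (∃ (z : Fin n → ℝ) (r : ℝ), 0 < r ∧ r * (1 - 1 / 10 ^ 24) ≤ 1 ∧
        (fun x => A *ᵥ x + b) '' U ⊆ K ∧
        K ⊆ (fun x => z + r • x) '' ((fun x => A *ᵥ x + b) '' U)))) :
    isoConst K ≤ isoConst S ∧ (isoConst K = isoConst S ↔ IsSimplex K) ∧
      (2 ≤ n → isoConst K < isoConst S) := by
  obtain ⟨A, b, U, T, hA, hU, hsym, hT, h⟩ := h
  have hq : 40 * ((n - T.card : ℕ) : ℝ) * Real.log ((n : ℝ) + 2) ≤ n := by
    have h2 : T.card ≤ n := by simpa using T.card_le_univ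
    rw [Nat.cast_sub h2]
    exact hT
  rcases h with ⟨h1, h2⟩ | ⟨z, r, hr0, hr, h1, h2⟩
  · exact near_alm hn hK hS (Alm.aff A b hA (alm_of_sym hU T hsym)) h1 h2 hq
  · have e : (fun x => z + r • x) '' ((fun x => A *ᵥ x + b) '' U) =
        (fun x => (r • A) *ᵥ x + (z + r • b)) '' U := by
      rw [← image_comp]
      refine image_congr fun x _ => ?_
      simp only [Function.comp_apply, smul_mulVec, smul_add]
      abel
    have hv := vol_of_bm (z := z) hK.2.1
      (isCompact_aff_image A b hU.2.1).measurableSet hr0 hr h1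
    change (1 - 1 / 10 ^ 24) ^ n *
      (volume ((fun x => z + r • x) '' ((fun x => A *ᵥ x + b) '' U))).toReal ≤ _ at hv
    rw [e] at hv h2
    have hA' : (r • A).det ≠ 0 := by
      rw [det_smul, Fintype.card_fin]
      exact mul_ne_zero (by positivity) hA
    refine near_alm hn hK hS (Alm.aff (r • A) (z + r • b) hA' (alm_of_sym hU T hsym)) h2 ?_ hq
    refine le_trans ?_ hv
    exact mul_le_mul_of_nonneg_right (min_le_right _ _) ENNReal.toReal_nonneg

end Vale.Agent.P254.EX
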