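import Vale.Agent.P254.FV.Good
import Vale.Agent.P254.EX.Alm
import Vale.Agent.P254.Sym.Num

/-!
P254: direct products and free sums with an arbitrary convex body as one factor.
-/

open MeasureTheory Set Matrix

namespace Vale.Agent.P254.EX

open FV

variable {m n : ℕ}

theorem good_prod_of_gap (hm : 1 ≤ m) (hn : 1 ≤ n) {K : Set (Fin m → ℝ)} {L : Set (Fin n → ℝ)}
    (hK : IsConvexBody K) (hL : IsConvexBody L)
    (hDL : Dn L ≤ Real.exp (38 / 100 * ((n : ℝ) + 1)) * simpC n)
    (h : Real.exp (38 / 100 * ((n : ℝ) + 1)) * Dn K < simpC m) : Good (directProd K L) := by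
  have hD := Dn_prod hK hL
  have h2 := (simpC_mul_le m n).2 hm hn
  have h3 : Dn K * Dn L ≤ simpC m * simpC n := by
    calc Dn K * Dn L ≤ Dn K * (Real.exp (38 / 100 * ((n : ℝ) + 1)) * simpC n) :=
          mul_le_mul_of_nonneg_left hDL (Dn_nonneg hK)
      _ = (Real.exp (38 / 100 * ((n : ℝ) + 1)) * Dn K) * simpC n := by ring
      _ ≤ simpC m * simpC n := mul_le_mul_of_nonneg_right h.le (simpC_pos n).le
  have h4 : Dn (directProd K L) < simpC (m + n) := by rw [hD]; linarith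
  exact ⟨by omega, body_prod hK hL, h4.le, fun h => absurd h h4.ne⟩

theorem good_sum_of_gap (hm : 1 ≤ m) (hn : 1 ≤ n) {K : Set (Fin m → ℝ)} {L : Set (Fin n → ℝ)}
    (hK : IsConvexBody K) (hL : IsConvexBody L)
    (hDL : Dn L ≤ Real.exp (38 / 100 * ((n : ℝ) + 1)) * simpC n)
    (h : Real.exp (38 / 100 * ((n : ℝ) + 1)) * Dn K < simpC m)
    (hK0 : (0 : Fin m → ℝ) ∈ K) (hL0 : (0 : Fin n → ℝ) ∈ L) : Good (P254.freeSum K L) := by
  have hbody : IsConvexBody (P254.freeSum K L) := by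
    rw [freeSum_eq hK.1 hL.1 hK0 hL0]
    refine body_of_vol (convex_sumS hK.1 hL.1) (isCompact_sumS hK.2.1 hL.2.1) ?_
    rw [vol_sumS hK.1 hK.2.1 hK0 hL.1 hL.2.1 hL0]
    exact mul_ne_zero (qq_ne m n) (mul_ne_zero (vol_pos hK).ne' (vol_pos hL).ne')
  obtain ⟨T, hT0, hT1, hD⟩ := Dn_sumS hm hn hK hK0 hL hL0
  rw [← freeSum_eq hK.1 hL.1 hK0 hL0] at hD
  have hCm := simpC_pos m
  have hCn := simpC_pos n
  have hC := simpC_pos (m + n)
  have hDK := Dn_nonneg hK
  have hDL0 := Dn_nonneg hL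
  have h3 : Dn K * Dn L < simpC m * simpC n := by
    calc Dn K * Dn L ≤ Dn K * (Real.exp (38 / 100 * ((n : ℝ) + 1)) * simpC n) :=
          mul_le_mul_of_nonneg_left hDL (Dn_nonneg hK)
      _ = (Real.exp (38 / 100 * ((n : ℝ) + 1)) * Dn K) * simpC n := by ring
      _ < simpC m * simpC n := mul_lt_mul_of_pos_right h hCn
  have h4 : Dn K * Dn L * T < simpC m * simpC n := by
    have := mul_le_mul_of_nonneg_left hT1 (mul_nonneg hDK hDL0)
    linarith
  have h5 : Dn (P254.freeSum K L) * (simpC m * simpC n) <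
      simpC (m + n) * (simpC m * simpC n) := by
    rw [hD]
    nlinarith
  have h6 : Dn (P254.freeSum K L) < simpC (m + n) :=
    lt_of_mul_lt_mul_right h5 (mul_pos hCm hCn).le
  exact ⟨by omega, hbody, h6.le, fun h => absurd h h6.ne⟩

theorem log_pi_gt : (1.134 : ℝ) < Real.log Real.pi := by
  have h1 := Real.one_sub_inv_le_log_of_pos (x := Real.pi / Real.exp 1) (by positivity)
  rw [Real.log_div Real.pi_pos.ne' (Real.exp_pos 1).ne', Real.log_exp, inv_div] at h1
  have h2 : Real.exp 1 / Real.pi < 0.866 := by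
    rw [div_lt_iff₀ Real.pi_pos]
    have := Real.exp_one_lt_d9
    have := Real.pi_gt_d2
    linarith
  linarith

/-- the numbers: `e^{.38 k} (m+1)^(2m+1) 1.026^m < 8^m (m!)^2` if `10 k ≤ m`, `k ≥ 2` -/
theorem any_num (m : ℕ) {k : ℝ} (hk : 2 ≤ k) (h : 10 * k ≤ m) :
    Real.exp (38 / 100 * k) * (1026 / 1000) ^ m * ((m : ℝ) + 1) ^ (2 * m + 1) <
      8 ^ m * (m.factorial : ℝ) ^ 2 := by
  have hm10 : (20 : ℝ) ≤ m := by linarith
  have hm0 : (0 : ℝ) < m := by linarith
  have hm1 : m ≠ 0 := by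
    rintro rfl
    norm_num at hm0
  rw [← Real.log_lt_log_iff (by positivity) (by positivity)]
  rw [Real.log_mul (by positivity) (by positivity), Real.log_mul (by positivity) (by positivity),
    Real.log_mul (by positivity) (by positivity), Real.log_pow, Real.log_pow, Real.log_pow,
    Real.log_pow, Real.log_exp]
  have l2 := Real.log_two_gt_d9
  have h5 := Stirling.le_log_factorial_stirling (n := m) hm1
  have h6 : Real.log ((m : ℝ) + 1) ≤ Real.log m + 1 / m := by
    have e : (m : ℝ) + 1 = m * (1 + 1 / m) := by field_simp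
    have h7 := Real.log_le_sub_one_of_pos (x := 1 + 1 / (m : ℝ)) (by positivity)
    rw [e, Real.log_mul hm0.ne' (by positivity)]
    linarith
  have h8 : (2 * (m : ℝ) + 1) * Real.log ((m : ℝ) + 1) ≤
      (2 * (m : ℝ) + 1) * Real.log m + (2 + 1 / m) := by
    have h9 := mul_le_mul_of_nonneg_left h6 (by positivity : (0 : ℝ) ≤ 2 * (m : ℝ) + 1)
    have e : (2 * (m : ℝ) + 1) * (Real.log m + 1 / m) =
        (2 * (m : ℝ) + 1) * Real.log m + (2 + 1 / m) := by
      field_simp
    rwa [e] at h9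
  have h10 : Real.log (1026 / 1000 : ℝ) ≤ 26 / 1000 := by
    have := Real.log_le_sub_one_of_pos (x := (1026 / 1000 : ℝ)) (by norm_num)
    linarith
  have h11 := log_pi_gt
  have h12 : Real.log (2 * Real.pi) = Real.log 2 + Real.log Real.pi :=
    Real.log_mul (by norm_num) Real.pi_pos.ne'
  have h13 : Real.log 8 = 3 * Real.log 2 := by
    rw [show (8 : ℝ) = 2 ^ 3 by norm_num, Real.log_pow]
    norm_num
  have h14 : 1 / (m : ℝ) ≤ 1 / 20 := one_div_le_one_div_of_le (by norm_num) hm10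
  have h15 : (m : ℝ) * Real.log (1026 / 1000) ≤ (m : ℝ) * (26 / 1000) :=
    mul_le_mul_of_nonneg_left h10 (by positivity)
  rw [h13]
  push_cast
  rw [h12] at h5
  have h16 : (m : ℝ) * 0.6931471803 ≤ m * Real.log 2 :=
    mul_le_mul_of_nonneg_left l2.le hm0.le
  nlinarith

/-- The bodies nearly filling an affine image of an unconditional body. -/
theorem Dn_near (hm : 2 ≤ m) {K U : Set (Fin m → ℝ)} (hU : IsConvexBody U) (hu : Unc.Uncond U)
    (hK : IsConvexBody K) {A : Matrix (Fin m) (Fin m) ℝ} {b : Fin m → ℝ} (hA : A.det ≠ 0)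
    (hKU : K ⊆ aff A b '' U)
    (hvol : min (79 / 80) ((1 - 1 / 10 ^ 24) ^ m) * (volume (aff A b '' U)).toReal ≤
      (volume K).toReal) :
    Dn K ≤ (1026 / 1000) ^ m * (((m : ℝ) + 1) / (8 * ((m : ℝ) + 2))) ^ m := by
  rcases min_choice (79 / 80 : ℝ) ((1 - 1 / 10 ^ 24) ^ m) with h | h
  · rw [h] at hvol
    have hV := volume_pos_of_body hK
    have hVU := volume_pos_of_body hU
    have hbody := Unc.unc_body (Unc.uncr_all m) hU hu
    set U' := aff A b '' U with hU'
    have hUb : IsConvexBody U' := isConvexBody_aff_image hA b hU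
    have hVU' := volume_pos_of_body hUb
    have h1 := det_cov_le_of_subset (by omega) hK.2.1 hV hUb hKU
    have h2 : (covMatrix U').det / (volume U').toReal ^ 2
        = (covMatrix U).det / (volume U).toReal ^ 2 := by
      rw [hU', cov_aff_image hA b hU.2.1 hVU.ne', volume_aff_image hA b hU.2.1.measurableSet,
        det_mul, det_mul, det_transpose, mul_pow, sq_abs]
      field_simp
    set V := (volume K).toReal with hVd
    set W := (volume U').toReal with hWd
    have hr : W / V ≤ 80 / 79 := by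
      rw [div_le_iff₀ hV]
      linarith
    have hr0 : 0 < W / V := div_pos hVU' hV
    have hdU : 0 ≤ (covMatrix U').det / W ^ 2 :=
      div_nonneg (covMatrix_posSemidef hUb.2.1).det_nonneg (by positivity)
    have h3 : (covMatrix K).det / V ^ 2 ≤ (W / V) ^ (m + 2) * ((covMatrix U').det / W ^ 2) := by
      rw [div_le_iff₀ (by positivity)]
      refine h1.trans (le_of_eq ?_)
      rw [pow_add]
      field_simp
    refine h3.trans ?_
    rw [h2] at hdU ⊢
    refine mul_le_mul ?_ hbody hdU (by positivity)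
    refine (pow_le_pow_left₀ hr0.le hr _).trans ?_
    have e1 : ((1026 : ℝ) / 1000) ^ m = (80 / 79) ^ m * (1026 * 79 / (1000 * 80)) ^ m := by
      rw [← mul_pow]
      norm_num
    rw [pow_add, e1]
    refine mul_le_mul_of_nonneg_left ?_ (by positivity)
    calc ((80 : ℝ) / 79) ^ 2 ≤ (1026 * 79 / (1000 * 80)) ^ 2 := by norm_num
      _ ≤ (1026 * 79 / (1000 * 80)) ^ m := pow_le_pow_right₀ (by norm_num) hm
  · rw [h] at hvol
    have h1 := alm_bound (by omega) (AU.Alm.aff A b hA (AU.Alm.unc hU hu)) hK hKU hvol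
    rw [pow_zero, one_mul] at h1
    exact h1

/-- The gap of the bodies nearly filling an affine image of an unconditional body. -/
theorem gap_near (hn : 1 ≤ n) (hmn : 10 * ((n : ℝ) + 1) ≤ m) {K U : Set (Fin m → ℝ)}
    (hU : IsConvexBody U) (hu : Unc.Uncond U)
    (hK : IsConvexBody K) {A : Matrix (Fin m) (Fin m) ℝ} {b : Fin m → ℝ} (hA : A.det ≠ 0)
    (hKU : K ⊆ aff A b '' U)
    (hvol : min (79 / 80) ((1 - 1 / 10 ^ 24) ^ m) * (volume (aff A b '' U)).toReal ≤
      (volume K).toReal) :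
    Real.exp (38 / 100 * ((n : ℝ) + 1)) * Dn K < simpC m := by
  have hn1 : (1 : ℝ) ≤ n := by exact_mod_cast hn
  have hm20 : (20 : ℝ) ≤ m := by linarith
  have hm : 20 ≤ m := by exact_mod_cast hm20
  have h1 := mul_le_mul_of_nonneg_left (Dn_near (by omega) hU hu hK hA hKU hvol)
    (Real.exp_pos (38 / 100 * ((n : ℝ) + 1))).le
  refine h1.trans_lt ?_
  rw [← mul_assoc, Sym.simpC_lt_iff]
  exact any_num m (by linarith) hmn

/-- **Arbitrary factors.** `K ⊆ ℝᵐ` nearly fills an affine image of an unconditional body, `L ⊆ ℝⁿ`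
is arbitrary with `det Σ_L / |L|² ≤ e^{.38 (n+1)} simpC n`. -/
theorem good_near_prod (hn : 1 ≤ n) (hmn : 10 * ((n : ℝ) + 1) ≤ m) {K U : Set (Fin m → ℝ)}
    {L : Set (Fin n → ℝ)} (hU : IsConvexBody U) (hu : Unc.Uncond U)
    (hK : IsConvexBody K) {A : Matrix (Fin m) (Fin m) ℝ} {b : Fin m → ℝ} (hA : A.det ≠ 0)
    (hKU : K ⊆ aff A b '' U)
    (hvol : min (79 / 80) ((1 - 1 / 10 ^ 24) ^ m) * (volume (aff A b '' U)).toReal ≤
      (volume K).toReal) (hL : IsConvexBody L)
    (hDL : Dn L ≤ Real.exp (38 / 100 * ((n : ℝ) + 1)) * simpC n) :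
    Good (directProd K L) ∧
      ((0 : Fin m → ℝ) ∈ K → (0 : Fin n → ℝ) ∈ L → Good (P254.freeSum K L)) := by
  have hg := gap_near hn hmn hU hu hK hA hKU hvol
  have hn1 : (1 : ℝ) ≤ n := by exact_mod_cast hn
  have hm20 : (20 : ℝ) ≤ m := by linarith
  have hm : 20 ≤ m := by exact_mod_cast hm20
  exact ⟨good_prod_of_gap (by omega) hn hK hL hDL hg,
    fun h1 h2 => good_sum_of_gap (by omega) hn hK hL hDL hg h1 h2⟩

/-- From `L_K < e^{-.19 (n+1)/m} L_Δ` to the normalised determinants. -/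
theorem gap_of_iso (hm : 1 ≤ m) {K S : Set (Fin m → ℝ)} (hK : IsConvexBody K) (hS : IsSimplex S)
    (h : isoConst K < Real.exp (-(19 / 100 * (((n : ℝ) + 1) / m))) * isoConst S) :
    Real.exp (38 / 100 * ((n : ℝ) + 1)) * Dn K < simpC m := by
  have hm0 : (0 : ℝ) < m := by exact_mod_cast hm
  have hS' : isoConst S = simpC m ^ (1 / (2 * (m : ℝ))) := by
    rw [isoConst_simplex hS, isoConst_eq, Dn_stdS hm]
  rw [hS', isoConst_eq] at h
  have h1 := Real.rpow_lt_rpow (z := 2 * (m : ℝ)) (Real.rpow_nonneg (Dn_nonneg hK) _) h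
    (by positivity)
  have e : 1 / (2 * (m : ℝ)) * (2 * m) = 1 := by field_simp
  have e2 : -(19 / 100 * (((n : ℝ) + 1) / m)) * (2 * m) = -(38 / 100 * ((n : ℝ) + 1)) := by
    field_simp
    ring
  rw [Real.mul_rpow (Real.exp_pos _).le (Real.rpow_nonneg (simpC_pos m).le _),
    ← Real.rpow_mul (Dn_nonneg hK), ← Real.rpow_mul (simpC_pos m).le, e, Real.rpow_one,
    Real.rpow_one, ← Real.exp_mul, e2, Real.exp_neg, inv_mul_eq_div, lt_div_iff₀ (Real.exp_pos _),
    mul_comm] at h1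
  exact h1

end Vale.Agent.P254.EX
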