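import Vale.Agent.P254.EX.Any
import Vale.Agent.P254.X.Done447

/-!
P254: direct products and free sums with an arbitrary convex body as one factor, no hypotheses.
-/

open MeasureTheory Set Matrix

namespace Vale.Agent.P254.EX

open FV

variable {m n : ℕ}

/-- `L_K ≤ e^{.19 (n+1)/n} L_Δ` for all convex bodies, in terms of the normalised determinant. -/
theorem Dn_all (hn : 1 ≤ n) {L : Set (Fin n → ℝ)} (hL : IsConvexBody L) :
    Dn L ≤ Real.exp (38 / 100 * ((n : ℝ) + 1)) * simpC n := by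
  have h := (X.Chain.final_all hn hL isSimplex_stdS).1
  rw [isoConst_eq, isoConst_eq, Dn_stdS hn] at h
  have hn0 : (0 : ℝ) < n := by exact_mod_cast hn
  have h1 := Real.rpow_le_rpow (z := 2 * (n : ℝ)) (Real.rpow_nonneg (Dn_nonneg hL) _) h
    (by positivity)
  have e : 1 / (2 * (n : ℝ)) * (2 * n) = 1 := by field_simp
  have e2 : 19 / 100 * (((n : ℝ) + 1) / n) * (2 * n) = 38 / 100 * ((n : ℝ) + 1) := by
    field_simp
    ring
  rwa [Real.mul_rpow (Real.exp_pos _).le (Real.rpow_nonneg (simpC_pos n).le _),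
    ← Real.rpow_mul (Dn_nonneg hL), ← Real.rpow_mul (simpC_pos n).le, e, Real.rpow_one,
    Real.rpow_one, ← Real.exp_mul, e2] at h1

/-- `K × L` and `K ⊕ L` for an arbitrary convex body `L ⊆ ℝⁿ` and a convex body `K ⊆ ℝᵐ` with
`L_K < e^{-.19 (n+1)/m} L_Δ`. -/
theorem any_of_iso (hm : 1 ≤ m) (hn : 1 ≤ n) {K S : Set (Fin m → ℝ)} {L : Set (Fin n → ℝ)}
    (hK : IsConvexBody K) (hL : IsConvexBody L) (hS : IsSimplex S)
    (h : isoConst K < Real.exp (-(19 / 100 * (((n : ℝ) + 1) / m))) * isoConst S) :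
    Good (directProd K L) ∧
      ((0 : Fin m → ℝ) ∈ K → (0 : Fin n → ℝ) ∈ L → Good (P254.freeSum K L)) := by
  have hg := gap_of_iso hm hK hS h
  exact ⟨good_prod_of_gap hm hn hK hL (Dn_all hn hL) hg,
    fun h1 h2 => good_sum_of_gap hm hn hK hL (Dn_all hn hL) hg h1 h2⟩

/-- `K × L` and `K ⊕ L` for an arbitrary convex body `L ⊆ ℝⁿ` and a convex body `K ⊆ ℝᵐ` nearly
filling an affine image of an unconditional body, `10 (n + 1) ≤ m`. -/
theorem any_near (hn : 1 ≤ n) (hmn : 10 * ((n : ℝ) + 1) ≤ m) {K U : Set (Fin m → ℝ)}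
    {L : Set (Fin n → ℝ)} (hU : IsConvexBody U)
    (hu : ∀ x ∈ U, ∀ y : Fin m → ℝ, (∀ i, |y i| = |x i|) → y ∈ U)
    (hK : IsConvexBody K) {A : Matrix (Fin m) (Fin m) ℝ} {b : Fin m → ℝ} (hA : A.det ≠ 0)
    (hKU : K ⊆ (fun x => A *ᵥ x + b) '' U)
    (hvol : min (79 / 80) ((1 - 1 / 10 ^ 24) ^ m) *
      (volume ((fun x => A *ᵥ x + b) '' U)).toReal ≤ (volume K).toReal) (hL : IsConvexBody L) :
    Good (directProd K L) ∧
      ((0 : Fin m → ℝ) ∈ K → (0 : Fin n → ℝ) ∈ L → Good (P254.freeSum K L)) :=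
  good_near_prod hn hmn hU hu hK hA hKU hvol hL (Dn_all hn hL)

end Vale.Agent.P254.EX
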