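import Vale.Agent.P254.FV.Good
import Vale.Agent.P254.FV.ClsDefs
import Vale.Agent.P254.X.Done447
import Vale.Agent.P254.Par.Main

/-!
P254: the strong isotropic constant conjecture for direct products and free sums with an arbitrary
convex body as one factor, from the near-sharp bound for all convex bodies.
-/

open MeasureTheory Set Matrix

namespace Vale.Agent.P254.AnyIso

open FV

variable {m n : ℕ}

/-- `L_K ≤ e^{.19 (n+1)/n} L_Δ` for all convex bodies, in terms of the normalised determinant. -/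
theorem Dn_all (hn : 1 ≤ n) {L : Set (Fin n → ℝ)} (hL : IsConvexBody L) :
    Dn L ≤ Real.exp (38 / 100 * ((n : ℝ) + 1)) * simpC n := by
  have h := (X.Chain.final_all hn hL isSimplex_stdS).1
  rw [isoConst_eq, isoConst_eq, Dn_stdS hn] at h
  have hn0 : (0 : ℝ) < n := by exact_mod_cast hn
  have h1 := Real.rpow_le_rpow (z := 2 * (n : ℝ)) (Real.rpow_nonneg (Dn_nonneg hL) _) h
    (by positivity)
  have e : 1 / (2 * (n : ℝ)) * (2 * n) = 1 := by field_simp
  have e2 : 19 / 100 * (((n : ℝ) + 1) / n) * (2 * n) = 38 / 100 * ((n : ℝ) + 1) := by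
    field_simp
    ring
  rwa [Real.mul_rpow (Real.exp_pos _).le (Real.rpow_nonneg (simpC_pos n).le _),
    ← Real.rpow_mul (Dn_nonneg hL), ← Real.rpow_mul (simpC_pos n).le, e, Real.rpow_one,
    Real.rpow_one, ← Real.exp_mul, e2] at h1

/-- From `L_K < e^{-.19 (n+1)/m} L_Δ` to the normalised determinants. -/
theorem gap_of_iso (hm : 1 ≤ m) {K S : Set (Fin m → ℝ)} (hK : IsConvexBody K) (hS : IsSimplex S)
    (h : isoConst K < Real.exp (-(19 / 100 * (((n : ℝ) + 1) / m))) * isoConst S) :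
    Real.exp (38 / 100 * ((n : ℝ) + 1)) * Dn K < simpC m := by
  have hm0 : (0 : ℝ) < m := by exact_mod_cast hm
  have hS' : isoConst S = simpC m ^ (1 / (2 * (m : ℝ))) := by
    rw [isoConst_simplex hS, isoConst_eq, Dn_stdS hm]
  rw [hS', isoConst_eq] at h
  have h1 := Real.rpow_lt_rpow (z := 2 * (m : ℝ)) (Real.rpow_nonneg (Dn_nonneg hK) _) h
    (by positivity)
  have e : 1 / (2 * (m : ℝ)) * (2 * m) = 1 := by field_simp
  have e2 : -(19 / 100 * (((n : ℝ) + 1) / m)) * (2 * m) = -(38 / 100 * ((n : ℝ) + 1)) := by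
    field_simp
    ring
  rw [Real.mul_rpow (Real.exp_pos _).le (Real.rpow_nonneg (simpC_pos m).le _),
    ← Real.rpow_mul (Dn_nonneg hK), ← Real.rpow_mul (simpC_pos m).le, e, Real.rpow_one,
    Real.rpow_one, ← Real.exp_mul, e2, Real.exp_neg, inv_mul_eq_div, lt_div_iff₀ (Real.exp_pos _),
    mul_comm] at h1
  exact h1

theorem iso_lt_of_Dn (hn : 1 ≤ n) {K S : Set (Fin n → ℝ)} (hK : IsConvexBody K)
    (hS : IsSimplex S) (h : Dn K < simpC n) : isoConst K < isoConst S := by
  have hn0 : (0 : ℝ) < n := by exact_mod_cast hn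
  have hS' : isoConst S = simpC n ^ (1 / (2 * (n : ℝ))) := by
    rw [isoConst_simplex hS, isoConst_eq, Dn_stdS hn]
  rw [hS', isoConst_eq]
  exact Real.rpow_lt_rpow (Dn_nonneg hK) h (by positivity)

/-- `L_{K × L} < L_Δ` for an arbitrary convex body `L ⊆ ℝⁿ` and a convex body `K ⊆ ℝᵐ` with
`L_K < e^{-.19 (n+1)/m} L_Δ`. -/
theorem prod_lt (hm : 1 ≤ m) (hn : 1 ≤ n) {K S : Set (Fin m → ℝ)} {L : Set (Fin n → ℝ)}
    {S' : Set (Fin (m + n) → ℝ)} (hK : IsConvexBody K) (hL : IsConvexBody L) (hS : IsSimplex S)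
    (hS' : IsSimplex S')
    (h : isoConst K < Real.exp (-(19 / 100 * (((n : ℝ) + 1) / m))) * isoConst S) :
    isoConst (directProd K L) < isoConst S' := by
  have hg := gap_of_iso hm hK hS h
  have hD := Dn_prod hK hL
  have h2 := (simpC_mul_le m n).2 hm hn
  have h3 : Dn K * Dn L ≤ simpC m * simpC n := by
    calc Dn K * Dn L ≤ Dn K * (Real.exp (38 / 100 * ((n : ℝ) + 1)) * simpC n) :=
          mul_le_mul_of_nonneg_left (Dn_all hn hL) (Dn_nonneg hK)
      _ = (Real.exp (38 / 100 * ((n : ℝ) + 1)) * Dn K) * simpC n := by ring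
      _ ≤ simpC m * simpC n := mul_le_mul_of_nonneg_right hg.le (simpC_pos n).le
  refine iso_lt_of_Dn (by omega) (body_prod hK hL) hS' ?_
  rw [hD]
  linarith

/-- the same for free sums -/
theorem sum_lt (hm : 1 ≤ m) (hn : 1 ≤ n) {K S : Set (Fin m → ℝ)} {L : Set (Fin n → ℝ)}
    {S' : Set (Fin (m + n) → ℝ)} (hK : IsConvexBody K) (hL : IsConvexBody L) (hS : IsSimplex S)
    (hS' : IsSimplex S')
    (h : isoConst K < Real.exp (-(19 / 100 * (((n : ℝ) + 1) / m))) * isoConst S)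
    (hK0 : (0 : Fin m → ℝ) ∈ K) (hL0 : (0 : Fin n → ℝ) ∈ L) :
    isoConst (P254.freeSum K L) < isoConst S' := by
  have hg := gap_of_iso hm hK hS h
  have hbody : IsConvexBody (P254.freeSum K L) := by
    rw [freeSum_eq hK.1 hL.1 hK0 hL0]
    refine body_of_vol (convex_sumS hK.1 hL.1) (isCompact_sumS hK.2.1 hL.2.1) ?_
    rw [vol_sumS hK.1 hK.2.1 hK0 hL.1 hL.2.1 hL0]
    exact mul_ne_zero (qq_ne m n) (mul_ne_zero (vol_pos hK).ne' (vol_pos hL).ne')
  obtain ⟨T, hT0, hT1, hD⟩ := Dn_sumS hm hn hK hK0 hL hL0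
  rw [← freeSum_eq hK.1 hL.1 hK0 hL0] at hD
  have hCm := simpC_pos m
  have hCn := simpC_pos n
  have hC := simpC_pos (m + n)
  have hDK := Dn_nonneg hK
  have hDL0 := Dn_nonneg hL
  have h3 : Dn K * Dn L < simpC m * simpC n := by
    calc Dn K * Dn L ≤ Dn K * (Real.exp (38 / 100 * ((n : ℝ) + 1)) * simpC n) :=
          mul_le_mul_of_nonneg_left (Dn_all hn hL) (Dn_nonneg hK)
      _ = (Real.exp (38 / 100 * ((n : ℝ) + 1)) * Dn K) * simpC n := by ring
      _ < simpC m * simpC n := mul_lt_mul_of_pos_right hg hCn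
  have h4 : Dn K * Dn L * T < simpC m * simpC n := by
    have := mul_le_mul_of_nonneg_left hT1 (mul_nonneg hDK hDL0)
    linarith
  have h5 : Dn (P254.freeSum K L) * (simpC m * simpC n) <
      simpC (m + n) * (simpC m * simpC n) := by
    rw [hD]
    nlinarith
  exact iso_lt_of_Dn (by omega) hbody hS' (lt_of_mul_lt_mul_right h5 (mul_pos hCm hCn).le)

theorem log_pi_gt : (1.134 : ℝ) < Real.log Real.pi := by
  have h1 := Real.one_sub_inv_le_log_of_pos (x := Real.pi / Real.exp 1) (by positivity)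
  rw [Real.log_div Real.pi_pos.ne' (Real.exp_pos 1).ne', Real.log_exp, inv_div] at h1
  have h2 : Real.exp 1 / Real.pi < 0.866 := by
    rw [div_lt_iff₀ Real.pi_pos]
    have := Real.exp_one_lt_d9
    have := Real.pi_gt_d2
    linarith
  linarith

theorem log_three_gt : (1.093 : ℝ) < Real.log 3 := by
  have h1 := Real.one_sub_inv_le_log_of_pos (x := 3 / Real.exp 1) (by positivity)
  rw [Real.log_div (by norm_num) (Real.exp_pos 1).ne', Real.log_exp, inv_div] at h1
  have h2 : Real.exp 1 / 3 < 0.907 := by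
    rw [div_lt_iff₀ (by norm_num)]
    have := Real.exp_one_lt_d9
    linarith
  linarith

/-- the numbers for the cube -/
theorem cube_num {k : ℝ} (m : ℕ) (hm : 5 ≤ m) (h : k + 3 ≤ m) :
    Real.exp (38 / 100 * k) * (((m : ℝ) + 1) * (((m : ℝ) + 1) * ((m : ℝ) + 2)) ^ m) <
      12 ^ m * (m.factorial : ℝ) ^ 2 := by
  have hm5 : (5 : ℝ) ≤ m := by exact_mod_cast hm
  have hm0 : (0 : ℝ) < m := by linarith
  rw [← Real.log_lt_log_iff (by positivity) (by positivity)]
  rw [Real.log_mul (by positivity) (by positivity), Real.log_mul (by positivity) (by positivity),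
    Real.log_mul (by positivity) (by positivity), Real.log_pow, Real.log_pow, Real.log_pow,
    Real.log_mul (by positivity) (by positivity), Real.log_exp]
  have l2 := Real.log_two_gt_d9
  have l3 := log_three_gt
  have h5 := Stirling.le_log_factorial_stirling (n := m) (by omega)
  have key : ∀ c : ℝ, 0 < c → Real.log ((m : ℝ) + c) ≤ Real.log m + c / m := by
    intro c hc
    have e : (m : ℝ) + c = m * (1 + c / m) := by field_simp
    have h7 := Real.log_le_sub_one_of_pos (x := 1 + c / (m : ℝ)) (by positivity)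
    rw [e, Real.log_mul hm0.ne' (by positivity)]
    linarith
  have h6 : ((m : ℝ) + 1) * Real.log ((m : ℝ) + 1) ≤
      ((m : ℝ) + 1) * Real.log m + (1 + 1 / m) := by
    have h9 := mul_le_mul_of_nonneg_left (key 1 one_pos) (by positivity : (0 : ℝ) ≤ (m : ℝ) + 1)
    have e : ((m : ℝ) + 1) * (Real.log m + 1 / m) =
        ((m : ℝ) + 1) * Real.log m + (1 + 1 / m) := by
      field_simp
    rwa [e] at h9
  have h8 : (m : ℝ) * Real.log ((m : ℝ) + 2) ≤ (m : ℝ) * Real.log m + 2 := by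
    have h9 := mul_le_mul_of_nonneg_left (key 2 two_pos) hm0.le
    have e : (m : ℝ) * (Real.log m + 2 / m) = (m : ℝ) * Real.log m + 2 := by
      field_simp
    rwa [e] at h9
  have h11 := log_pi_gt
  have h12 : Real.log (2 * Real.pi) = Real.log 2 + Real.log Real.pi :=
    Real.log_mul (by norm_num) Real.pi_pos.ne'
  have h13 : Real.log 12 = 2 * Real.log 2 + Real.log 3 := by
    rw [show (12 : ℝ) = 2 ^ 2 * 3 by norm_num, Real.log_mul (by norm_num) (by norm_num),
      Real.log_pow]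
    norm_num
  have h14 : 1 / (m : ℝ) ≤ 1 / 5 := one_div_le_one_div_of_le (by norm_num) hm5
  rw [h13]
  push_cast
  rw [h12] at h5
  have h16 : (m : ℝ) * 0.6931471803 ≤ m * Real.log 2 :=
    mul_le_mul_of_nonneg_left l2.le hm0.le
  have h17 : (m : ℝ) * 1.093 ≤ m * Real.log 3 :=
    mul_le_mul_of_nonneg_left l3.le hm0.le
  nlinarith

/-- `L_{[0,1]^m × K} < L_Δ` for every convex body `K ⊆ ℝⁿ` and every `m ≥ n + 4`. -/
theorem cube_prod_lt (hn : 1 ≤ n) (hmn : n + 4 ≤ m) {L : Set (Fin n → ℝ)}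
    {S' : Set (Fin (m + n) → ℝ)} (hL : IsConvexBody L) (hS' : IsSimplex S') :
    isoConst (directProd (Icc (0 : Fin m → ℝ) 1) L) < isoConst S' := by
  have hK : IsConvexBody (Icc (0 : Fin m → ℝ) 1) := by
    refine body_of_vol (convex_Icc 0 1) isCompact_Icc ?_
    rw [Real.volume_Icc_pi_toReal zero_le_one]
    simp
  have hD : Dn (Icc (0 : Fin m → ℝ) 1) = (covMatrix (Icc (0 : Fin m → ℝ) 1)).det := by
    unfold Dn
    rw [Real.volume_Icc_pi_toReal zero_le_one]
    simp
  have h1 := Par.par_det (n := m) (by omega) hK subset_rfl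
  rw [← hD] at h1
  have hDK := Dn_nonneg hK
  have hkm : ((n : ℝ) + 1) + 3 ≤ m := by
    have : ((n + 4 : ℕ) : ℝ) ≤ m := by exact_mod_cast hmn
    push_cast at this
    linarith
  have hnum := cube_num (k := (n : ℝ) + 1) m (by omega) hkm
  have hg : Real.exp (38 / 100 * ((n : ℝ) + 1)) * Dn (Icc (0 : Fin m → ℝ) 1) < simpC m := by
    unfold simpC
    rw [lt_div_iff₀ (by positivity)]
    set E := Real.exp (38 / 100 * ((n : ℝ) + 1))
    set P := ((m : ℝ) + 1) * (((m : ℝ) + 1) * ((m : ℝ) + 2)) ^ m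
    have h12 : (0 : ℝ) < 12 ^ m := by positivity
    have h2 : (12 : ℝ) ^ m * (E * Dn (Icc (0 : Fin m → ℝ) 1) * P) ≤ E * P := by
      have hEP : 0 ≤ E * P := by positivity
      calc (12 : ℝ) ^ m * (E * Dn (Icc (0 : Fin m → ℝ) 1) * P)
          = (12 ^ m * Dn (Icc (0 : Fin m → ℝ) 1)) * (E * P) := by ring
        _ ≤ 1 * (E * P) := mul_le_mul_of_nonneg_right h1 hEP
        _ = E * P := one_mul _
    exact lt_of_mul_lt_mul_left (h2.trans_lt hnum) h12.le
  have hDp := Dn_prod hK hL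
  have h2 := (simpC_mul_le m n).2 (by omega) hn
  have h3 : Dn (Icc (0 : Fin m → ℝ) 1) * Dn L ≤ simpC m * simpC n := by
    calc Dn (Icc (0 : Fin m → ℝ) 1) * Dn L
        ≤ Dn (Icc (0 : Fin m → ℝ) 1) * (Real.exp (38 / 100 * ((n : ℝ) + 1)) * simpC n) :=
          mul_le_mul_of_nonneg_left (Dn_all hn hL) (Dn_nonneg hK)
      _ = (Real.exp (38 / 100 * ((n : ℝ) + 1)) * Dn (Icc (0 : Fin m → ℝ) 1)) * simpC n := by ring
      _ ≤ simpC m * simpC n := mul_le_mul_of_nonneg_right hg.le (simpC_pos n).le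
  refine iso_lt_of_Dn (by omega) (body_prod hK hL) hS' ?_
  rw [hDp]
  linarith

end Vale.Agent.P254.AnyIso
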