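import Vale.Agent.P254.EX.Top

/-!
P254: the Banach-Mazur form of the theorem for the neighbourhood of the unconditional bodies.
-/

open MeasureTheory Set Matrix

namespace Vale.Agent.P254.EX

open Unc Unc.FB

variable {n : ℕ}

lemma vol_of_bm {K W : Set (Fin n → ℝ)} (hK : IsCompact K) (hW : MeasurableSet W)
    {z : Fin n → ℝ} {r : ℝ} (hr0 : 0 < r) (hr : r * (1 - 1 / 10 ^ 24) ≤ 1) (hWK : W ⊆ K) :
    (1 - 1 / 10 ^ 24) ^ n * (volume ((fun x => z + r • x) '' W)).toReal ≤ (volume K).toReal := by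
  have hq0 : (0 : ℝ) < 1 - 1 / 10 ^ 24 := by norm_num
  have e : (fun x => z + r • x) '' W = aff (r • (1 : Matrix (Fin n) (Fin n) ℝ)) z '' W := by
    refine image_congr fun x _ => ?_
    simp only [aff, smul_mulVec, one_mulVec]
    rw [add_comm]
  have hd : (r • (1 : Matrix (Fin n) (Fin n) ℝ)).det = r ^ n := by
    rw [det_smul, det_one, Fintype.card_fin, mul_one]
  rw [e, volume_aff_image (by rw [hd]; positivity) z hW, hd, abs_of_pos (by positivity)]
  have h1 : (volume W).toReal ≤ (volume K).toReal :=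
    ENNReal.toReal_mono hK.measure_lt_top.ne (measure_mono hWK)
  have h2 : (r * (1 - 1 / 10 ^ 24)) ^ n ≤ 1 := pow_le_one₀ (by positivity) hr
  calc (1 - 1 / 10 ^ 24) ^ n * (r ^ n * (volume W).toReal)
      = (r * (1 - 1 / 10 ^ 24)) ^ n * (volume W).toReal := by rw [mul_pow]; ring
    _ ≤ 1 * (volume W).toReal := by gcongr
    _ ≤ _ := by rw [one_mul]; exact h1

/-- the two forms of the hypothesis at once -/
theorem top_bm (hUNC : UNCR n) (hn : 1 ≤ n) {K S : Set (Fin n → ℝ)}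
    (hK : IsConvexBody K) (hS : IsSimplex S)
    (h : ∃ (A : Matrix (Fin n) (Fin n) ℝ) (b : Fin n → ℝ) (U : Set (Fin n → ℝ)), A.det ≠ 0 ∧
      IsConvexBody U ∧ Uncond U ∧
      ((K ⊆ (fun x => A *ᵥ x + b) '' U ∧
        min (79 / 80) ((1 - 1 / 10 ^ 24) ^ n) * (volume ((fun x => A *ᵥ x + b) '' U)).toReal ≤
          (volume K).toReal) ∨
      (∃ (z : Fin n → ℝ) (r : ℝ), 0 < r ∧ r * (1 - 1 / 10 ^ 24) ≤ 1 ∧
        (fun x => A *ᵥ x + b) '' U ⊆ K ∧
        K ⊆ (fun x => z + r • x) '' ((fun x => A *ᵥ x + b) '' U)))) :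
    isoConst K ≤ isoConst S ∧ (isoConst K = isoConst S ↔ IsSimplex K) ∧
      (2 ≤ n → isoConst K < isoConst S) := by
  obtain ⟨A, b, U, hA, hU, hu, ⟨h1, h2⟩ | ⟨z, r, hr0, hr, h1, h2⟩⟩ := h
  · exact top_exp hUNC hn hK hS ⟨A, b, U, hA, hU, hu, h1, h2⟩
  · have e : (fun x => z + r • x) '' ((fun x => A *ᵥ x + b) '' U) =
        (fun x => (r • A) *ᵥ x + (z + r • b)) '' U := by
      rw [← image_comp]
      refine image_congr fun x _ => ?_
      simp only [Function.comp_apply, smul_mulVec, smul_add]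
      abel
    have hv := vol_of_bm (z := z) hK.2.1
      (isCompact_aff_image A b hU.2.1).measurableSet hr0 hr h1
    change (1 - 1 / 10 ^ 24) ^ n *
      (volume ((fun x => z + r • x) '' ((fun x => A *ᵥ x + b) '' U))).toReal ≤ _ at hv
    rw [e] at hv h2
    refine top_exp hUNC hn hK hS ⟨r • A, z + r • b, U, ?_, hU, hu, h2, ?_⟩
    · rw [det_smul, Fintype.card_fin]
      exact mul_ne_zero (by positivity) hA
    · refine le_trans ?_ hv
      exact mul_le_mul_of_nonneg_right (min_le_right _ _) ENNReal.toReal_nonneg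

end Vale.Agent.P254.EX
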