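import Mathlib

/-!
P254, bodies near unconditional bodies: the one-dimensional cost inequality.
-/

namespace Vale.Agent.P254.EX

theorem log_cost {c w : ℝ} (hc0 : 0 ≤ c) (hc : c < 1) (hw0 : -1 < w) (hw : w < 1) :
    (1 + c) * Real.log (1 + w) + (1 - c) * Real.log (1 - w) ≤ 2 * c ^ 2 := by
  have h1 : Real.log (1 + w) ≤ c + (w - c) / (1 + c) := by
    have e : 1 + w = (1 + c) * ((1 + w) / (1 + c)) := by field_simp
    rw [e, Real.log_mul (by linarith) (by
      have : 0 < (1 + w) / (1 + c) := div_pos (by linarith) (by linarith)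
      exact this.ne')]
    have h2 := Real.log_le_sub_one_of_pos (x := 1 + c) (by linarith)
    have h3 := Real.log_le_sub_one_of_pos (x := (1 + w) / (1 + c))
      (div_pos (by linarith) (by linarith))
    have h4 : (1 + w) / (1 + c) - 1 = (w - c) / (1 + c) := by field_simp; ring
    linarith
  have h2 : Real.log (1 - w) ≤ -c + (c - w) / (1 - c) := by
    have hc1 : 0 < 1 - c := by linarith
    have e : 1 - w = (1 - c) * ((1 - w) / (1 - c)) := by field_simp
    rw [e, Real.log_mul (by linarith) (by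
      have : 0 < (1 - w) / (1 - c) := div_pos (by linarith) (by linarith)
      exact this.ne')]
    have h2 := Real.log_le_sub_one_of_pos (x := 1 - c) (by linarith)
    have h3 := Real.log_le_sub_one_of_pos (x := (1 - w) / (1 - c))
      (div_pos (by linarith) (by linarith))
    have h4 : (1 - w) / (1 - c) - 1 = (c - w) / (1 - c) := by field_simp; ring
    linarith
  have h3 : (1 + c) * Real.log (1 + w) ≤ (1 + c) * (c + (w - c) / (1 + c)) :=
    mul_le_mul_of_nonneg_left h1 (by linarith)
  have h4 : (1 - c) * Real.log (1 - w) ≤ (1 - c) * (-c + (c - w) / (1 - c)) :=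
    mul_le_mul_of_nonneg_left h2 (by linarith)
  have e3 : (1 + c) * (c + (w - c) / (1 + c)) = (1 + c) * c + (w - c) := by
    have : (1 + c) ≠ 0 := by linarith
    field_simp
  have e4 : (1 - c) * (-c + (c - w) / (1 - c)) = -(1 - c) * c + (c - w) := by
    have : (1 - c) ≠ 0 := by linarith
    field_simp
  nlinarith

theorem cost {a ρ : ℝ} (ha : 0 ≤ a) (ha' : a ≤ 1 / 8) (hρ : 0 < ρ) {x y : ℝ}
    (hx : 0 < x) (hy : 0 < y) :
    4 * x * y * Real.exp (a * Real.log (1 + (x ^ 2) ^ 2 / ρ)
      - a * Real.log (1 + (y ^ 2) ^ 2 / ρ)) ≤ Real.exp (32 * a ^ 2) * (x + y) ^ 2 := by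
  have hpx : 0 < 1 + (x ^ 2) ^ 2 / ρ := by positivity
  have hpy : 0 < 1 + (y ^ 2) ^ 2 / ρ := by positivity
  have h32 : 1 ≤ Real.exp (32 * a ^ 2) := Real.one_le_exp (by positivity)
  rcases le_total x y with hxy | hxy
  · have h1 : Real.log (1 + (x ^ 2) ^ 2 / ρ) ≤ Real.log (1 + (y ^ 2) ^ 2 / ρ) := by
      apply Real.log_le_log hpx
      gcongr
    have h2 : Real.exp (a * Real.log (1 + (x ^ 2) ^ 2 / ρ)
      - a * Real.log (1 + (y ^ 2) ^ 2 / ρ)) ≤ 1 := by
      apply Real.exp_le_one_iff.2
      have := mul_le_mul_of_nonneg_left h1 ha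
      linarith
    calc 4 * x * y * Real.exp (a * Real.log (1 + (x ^ 2) ^ 2 / ρ)
          - a * Real.log (1 + (y ^ 2) ^ 2 / ρ)) ≤ 4 * x * y * 1 := by gcongr
      _ ≤ 1 * (x + y) ^ 2 := by nlinarith [sq_nonneg (x - y)]
      _ ≤ _ := by gcongr
  · -- the main case
    have hs : 0 < x + y := by linarith
    set w : ℝ := (x - y) / (x + y) with hw
    have hw1 : 1 + w = 2 * x / (x + y) := by rw [hw]; field_simp; ring
    have hw2 : 1 - w = 2 * y / (x + y) := by rw [hw]; field_simp; ring
    have hp1 : 0 < 1 + w := by rw [hw1]; positivity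
    have hp2 : 0 < 1 - w := by rw [hw2]; positivity
    have hc := log_cost (c := 4 * a) (w := w) (by linarith) (by linarith) (by linarith)
      (by linarith)
    have h1 : Real.log (1 + (x ^ 2) ^ 2 / ρ) - Real.log (1 + (y ^ 2) ^ 2 / ρ)
        ≤ 4 * (Real.log (1 + w) - Real.log (1 - w)) := by
      have e1 : Real.log (1 + w) - Real.log (1 - w) = Real.log (x / y) := by
        rw [← Real.log_div hp1.ne' hp2.ne', hw1, hw2]
        congr 1
        field_simp
      rw [e1, ← Real.log_div hpx.ne' hpy.ne']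
      have e2 : 4 * Real.log (x / y) = Real.log ((x / y) ^ 4) := by
        rw [Real.log_pow]; push_cast; ring
      rw [e2]
      apply Real.log_le_log (by positivity)
      rw [div_pow, div_le_div_iff₀ hpy (by positivity)]
      have h4 : y ^ 4 ≤ x ^ 4 := by gcongr
      have e5 : (1 + (x ^ 2) ^ 2 / ρ) * y ^ 4 = y ^ 4 + x ^ 4 * y ^ 4 / ρ := by
        field_simp
      have e6 : x ^ 4 * (1 + (y ^ 2) ^ 2 / ρ) = x ^ 4 + x ^ 4 * y ^ 4 / ρ := by
        field_simp
      rw [e5, e6]
      linarith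
    have e7 : 4 * x * y = (x + y) ^ 2 * Real.exp (Real.log (1 + w) + Real.log (1 - w)) := by
      rw [Real.exp_add, Real.exp_log hp1, Real.exp_log hp2, hw1, hw2]
      field_simp
      ring
    rw [e7, mul_assoc, ← Real.exp_add, mul_comm]
    gcongr
    have h8 := mul_le_mul_of_nonneg_left h1 ha
    nlinarith
end Vale.Agent.P254.EX
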