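import Vale.Agent.P254.EX.PLsq
import Vale.Agent.P254.EX.Cost
import Vale.Agent.P254.Unc.FinBody

/-!
P254, bodies near unconditional bodies: comparison of truncated second moments.
-/

open MeasureTheory Set

namespace Vale.Agent.P254.EX

open Unc Unc.FB

variable {n : ℕ}

/-- Jensen's inequality for the exponential function -/
lemma jensen {K : Set (Fin n → ℝ)} (hK : IsCompact K) (hV : 0 < (volume K).toReal)
    {f : (Fin n → ℝ) → ℝ} (hf : Continuous f) :
    (volume K).toReal * Real.exp ((volume K).toReal⁻¹ * ∫ x in K, f x) ≤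
      ∫ x in K, Real.exp (f x) := by
  set V := (volume K).toReal with hVd
  set m := V⁻¹ * ∫ x in K, f x with hm
  have hfi : IntegrableOn f K := hf.continuousOn.integrableOn_compact hK
  have hei : IntegrableOn (fun x => Real.exp (f x)) K :=
    hf.rexp.continuousOn.integrableOn_compact hK
  have hfin : volume K ≠ ⊤ := hK.measure_lt_top.ne
  have h1 : ∫ x in K, (Real.exp m * (1 + f x - m)) ≤ ∫ x in K, Real.exp (f x) := by
    refine setIntegral_mono ?_ hei fun x => ?_
    · exact (((integrableOn_const hfin).add hfi).sub (integrableOn_const hfin)).const_mul _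
    · have h2 := Real.add_one_le_exp (f x - m)
      have h3 : Real.exp (f x) = Real.exp m * Real.exp (f x - m) := by
        rw [← Real.exp_add]; congr 1; ring
      rw [h3]
      apply mul_le_mul_of_nonneg_left _ (Real.exp_pos m).le
      linarith
  have h2 : ∫ x in K, (Real.exp m * (1 + f x - m)) = V * Real.exp m := by
    have e : ∀ x, 1 + f x - m = (1 - m) + f x := fun x => by ring
    simp_rw [e]
    have hci : Integrable (fun _ : Fin n → ℝ => 1 - m) (volume.restrict K) :=
      integrableOn_const hfin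
    rw [integral_const_mul, integral_add hci hfi, setIntegral_const,
      smul_eq_mul, Measure.real, ← hVd]
    have h3 : ∫ x in K, f x = V * m := by rw [hm]; field_simp
    rw [h3]
    ring
  rw [h2] at h1
  exact h1

/-- the truncated square -/
noncomputable def psi (ρ t : ℝ) : ℝ := Real.log (1 + t ^ 2 / ρ)

lemma psi_cont {ρ : ℝ} (hρ : 0 < ρ) : Continuous (psi ρ) := by
  unfold psi
  refine Continuous.log (by fun_prop) fun t => ?_
  have : 0 < 1 + t ^ 2 / ρ := by positivity
  exact this.ne'

lemma psi_nonneg {ρ : ℝ} (hρ : 0 < ρ) (t : ℝ) : 0 ≤ psi ρ t := by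
  unfold psi
  apply Real.log_nonneg
  have : 0 ≤ t ^ 2 / ρ := by positivity
  linarith

lemma psi_le {ρ : ℝ} (hρ : 0 < ρ) (t : ℝ) : psi ρ t ≤ t ^ 2 / ρ := by
  unfold psi
  have : 0 ≤ t ^ 2 / ρ := by positivity
  have h := Real.log_le_sub_one_of_pos (x := 1 + t ^ 2 / ρ) (by linarith)
  linarith

theorem jen {U K : Set (Fin n → ℝ)} (hU : IsConvexBody U) (hu : Uncond U) (hK : IsCompact K)
    (hVK : 0 < (volume K).toReal) (hVU : 0 < (volume U).toReal)
    (hKU : K ⊆ U) {a : ℝ} (ha : 0 ≤ a) (ha' : a ≤ 1 / 8) (ρ : Fin n → ℝ) (hρ : ∀ k, 0 < ρ k)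
    (S : Finset (Fin n)) :
    a * (∑ k ∈ S, (volume K).toReal⁻¹ * ∫ x in K, psi (ρ k) (x k)) ≤
      a * (∑ k ∈ S, (volume U).toReal⁻¹ * ∫ x in U, psi (ρ k) (x k)) + 32 * a ^ 2 * S.card +
        Real.log ((volume U).toReal / (volume K).toReal) := by
  classical
  set Φ : Fin n → ℝ → ℝ := fun k t => if k ∈ S then a * psi (ρ k) t else 0 with hΦ
  set C : Fin n → ℝ := fun k => if k ∈ S then 32 * a ^ 2 else 0 with hC
  have hΦc : ∀ k, Continuous (Φ k) := by
    intro k
    by_cases hk : k ∈ S
    · simp only [hΦ, hk, if_true]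
      exact continuous_const.mul (psi_cont (hρ k))
    · simp only [hΦ, hk, if_false]
      exact continuous_const
  have hcost : ∀ k x y, 0 < x → 0 < y →
      4 * x * y * Real.exp (Φ k (x ^ 2) - Φ k (y ^ 2)) ≤ Real.exp (C k) * (x + y) ^ 2 := by
    intro k x y hx hy
    by_cases hk : k ∈ S
    · simp only [hΦ, hC, hk, if_true, psi]
      exact cost ha ha' (hρ k) hx hy
    · simp only [hΦ, hC, hk, if_false, sub_self, Real.exp_zero]
      nlinarith [sq_nonneg (x - y)]
  set P : Set (Fin n → ℝ) := U ∩ {x | ∀ i, 0 ≤ x i} with hP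
  have hPk : IsCompact P := hU.2.1.inter_right orth_closed
  have hpl := plsq (hU.1.inter orth_convex) hPk (down hU.1 hu) Φ hΦc C hcost
  set F : (Fin n → ℝ) → ℝ := fun x => ∑ k, Φ k (x k) with hF
  have hFc : Continuous F := continuous_finsetSum _ fun k _ => (hΦc k).comp (continuous_apply k)
  have hFs : ∀ j x, F (refl j x) = F x := by
    intro j x
    simp only [hF]
    refine Finset.sum_congr rfl fun k _ => ?_
    simp only [hΦ, psi]
    rw [← sq_abs (refl j x k), refl_abs, sq_abs]
  have hfin : volume U ≠ ⊤ := hU.2.1.measure_lt_top.ne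
  have hVP : (volume U).toReal = 2 ^ n * (volume P).toReal := by
    have h := reduct_univ hu (f := fun _ => (1 : ℝ)) (integrableOn_const hfin) (fun _ _ => rfl)
    rw [setIntegral_const, setIntegral_const] at h
    simpa [Measure.real] using h
  have e1 : ∫ x in U, Real.exp (F x) = 2 ^ n * ∫ x in P, Real.exp (F x) :=
    reduct_univ hu (hFc.rexp.continuousOn.integrableOn_compact hU.2.1)
      (fun j x => by rw [hFs])
  have e2 : ∫ x in U, Real.exp (-F x) = 2 ^ n * ∫ x in P, Real.exp (-F x) :=
    reduct_univ hu (hFc.neg.rexp.continuousOn.integrableOn_compact hU.2.1)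
      (fun j x => by rw [hFs])
  have hpl2 : (∫ x in U, Real.exp (F x)) * (∫ x in U, Real.exp (-F x)) ≤
      Real.exp (∑ k, C k) * (volume U).toReal ^ 2 := by
    rw [e1, e2, hVP]
    have : (0 : ℝ) < 2 ^ n * 2 ^ n := by positivity
    have h := mul_le_mul_of_nonneg_left hpl this.le
    calc _ = 2 ^ n * 2 ^ n * ((∫ x in P, Real.exp (F x)) * (∫ x in P, Real.exp (-F x))) := by ring
      _ ≤ _ := h
      _ = _ := by ring
  set VK := (volume K).toReal with hVKd
  set VU := (volume U).toReal with hVUd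
  have hsum : ∀ (L : Set (Fin n → ℝ)), IsCompact L → ∀ c : ℝ,
      c * ∫ x in L, F x = a * ∑ k ∈ S, c * ∫ x in L, psi (ρ k) (x k) := by
    intro L hL c
    have e : ∀ x, F x = ∑ k ∈ S, a * psi (ρ k) (x k) := by
      intro x
      simp only [hF, hΦ]
      rw [← Finset.sum_filter]
      congr 1
      ext k
      simp
    simp_rw [e]
    rw [integral_finsetSum _ (fun k _ => ?_), Finset.mul_sum, Finset.mul_sum]
    · refine Finset.sum_congr rfl fun k _ => ?_
      rw [integral_const_mul]
      ring
    · exact (continuous_const.mul ((psi_cont (hρ k)).comp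
        (continuous_apply k))).continuousOn.integrableOn_compact hL
  have hCs : ∑ k, C k = 32 * a ^ 2 * S.card := by
    simp only [hC]
    rw [← Finset.sum_filter, Finset.sum_const, nsmul_eq_mul]
    have : Finset.filter (fun k => k ∈ S) Finset.univ = S := by ext k; simp
    rw [this]
    ring
  have j1 := jensen hK hVK hFc
  have j2 : VU * Real.exp (VU⁻¹ * ∫ x in U, -F x) ≤ ∫ x in U, Real.exp (-F x) :=
    jensen hU.2.1 hVU hFc.neg
  have j3 : ∫ x in K, Real.exp (F x) ≤ ∫ x in U, Real.exp (F x) :=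
    setIntegral_mono_set (hFc.rexp.continuousOn.integrableOn_compact hU.2.1)
      (Filter.Eventually.of_forall fun x => (Real.exp_pos _).le)
      (Filter.Eventually.of_forall hKU)
  rw [← hVKd, hsum K hK] at j1
  rw [integral_neg, mul_neg, hsum U hU.2.1] at j2
  set mK := a * ∑ k ∈ S, VK⁻¹ * ∫ x in K, psi (ρ k) (x k) with hmK
  set mU := a * ∑ k ∈ S, VU⁻¹ * ∫ x in U, psi (ρ k) (x k) with hmU
  have h1 : VK * Real.exp mK * (VU * Real.exp (-mU)) ≤
      Real.exp (∑ k, C k) * VU ^ 2 := by
    refine le_trans ?_ hpl2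
    exact mul_le_mul (j1.trans j3) j2 (by positivity)
      (integral_nonneg fun x => (Real.exp_pos _).le)
  have h2 : Real.exp (mK - mU) ≤ Real.exp (∑ k, C k + Real.log (VU / VK)) := by
    rw [Real.exp_add, Real.exp_log (div_pos hVU hVK), sub_eq_add_neg, Real.exp_add,
      ← mul_div_assoc, le_div_iff₀ hVK]
    have h3 : (Real.exp mK * Real.exp (-mU) * VK) * VU ≤ (Real.exp (∑ k, C k) * VU) * VU := by
      calc _ = VK * Real.exp mK * (VU * Real.exp (-mU)) := by ring
        _ ≤ _ := h1
        _ = _ := by ring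
    exact le_of_mul_le_mul_right h3 hVU
  have h3 := Real.exp_le_exp.1 h2
  rw [hCs] at h3
  linarith

end Vale.Agent.P254.EX
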