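import Mathlib

/-!
P254, bodies near unconditional bodies: summation over the coordinates, numerics.
-/

namespace Vale.Agent.P254.EX

theorem sumS {n : ℕ} (y β : Fin n → ℝ) {ε₁ ε₂ L c : ℝ} (hy : ∀ k, 0 < y k)
    (hL : 0 ≤ L) (hc : 0 ≤ c) (hε₂ : 0 ≤ ε₂)
    (h1 : ∀ S : Finset (Fin n), ∑ k ∈ S, β k ≤ S.card + n * ε₁)
    (h2 : ∀ k, Real.log (y k) ≤ L + c * β k)
    (h3 : ∀ k, β k ≤ 2 → y k ≤ β k + ε₂) :
    ∑ k, Real.log (y k) ≤ n * (ε₂ + ε₁ * (1 + L + 2 * c)) := by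
  classical
  set G : Finset (Fin n) := Finset.univ.filter fun k => β k ≤ 2 with hG
  set B : Finset (Fin n) := Finset.univ.filter fun k => ¬ β k ≤ 2 with hB
  have hsplit : ∑ k, Real.log (y k) = ∑ k ∈ G, Real.log (y k) + ∑ k ∈ B, Real.log (y k) :=
    (Finset.sum_filter_add_sum_filter_not _ _ _).symm
  have hGn : (G.card : ℝ) ≤ n := by
    have := Finset.card_le_univ G
    rw [Fintype.card_fin] at this
    exact_mod_cast this
  have g1 : ∑ k ∈ G, Real.log (y k) ≤ ∑ k ∈ G, (β k - 1 + ε₂) := by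
    refine Finset.sum_le_sum fun k hk => ?_
    have hk2 : β k ≤ 2 := (Finset.mem_filter.1 hk).2
    have := Real.log_le_sub_one_of_pos (hy k)
    have := h3 k hk2
    linarith
  have g2 : ∑ k ∈ G, (β k - 1 + ε₂) = ∑ k ∈ G, β k - G.card + G.card * ε₂ := by
    rw [Finset.sum_add_distrib, Finset.sum_sub_distrib, Finset.sum_const, Finset.sum_const,
      nsmul_eq_mul, nsmul_eq_mul, mul_one]
  have g3 := h1 G
  have g4 : (G.card : ℝ) * ε₂ ≤ n * ε₂ := mul_le_mul_of_nonneg_right hGn hε₂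
  have b1 : ∑ k ∈ B, Real.log (y k) ≤ ∑ k ∈ B, (L + c * β k) :=
    Finset.sum_le_sum fun k _ => h2 k
  have b2 : ∑ k ∈ B, (L + c * β k) = B.card * L + c * ∑ k ∈ B, β k := by
    rw [Finset.sum_add_distrib, Finset.sum_const, nsmul_eq_mul, Finset.mul_sum]
  have b3 := h1 B
  have b4 : (B.card : ℝ) * 2 ≤ ∑ k ∈ B, β k := by
    rw [← nsmul_eq_mul, ← Finset.sum_const]
    refine Finset.sum_le_sum fun k hk => ?_
    have hk2 : ¬ β k ≤ 2 := (Finset.mem_filter.1 hk).2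
    linarith [not_le.1 hk2]
  have b5 : (B.card : ℝ) ≤ n * ε₁ := by linarith
  have b6 : ∑ k ∈ B, β k ≤ 2 * (n * ε₁) := by linarith
  have b7 : (B.card : ℝ) * L ≤ n * ε₁ * L := mul_le_mul_of_nonneg_right b5 hL
  have b8 : c * ∑ k ∈ B, β k ≤ c * (2 * (n * ε₁)) := mul_le_mul_of_nonneg_left b6 hc
  rw [hsplit]
  nlinarith

/-- `((m+1)/m)^(2m+1) (1.026) ≤ 8` for `m ≥ 3`. -/
theorem ratio_le {m : ℕ} (h3 : 3 ≤ m) :
    ((m : ℝ) + 1) ^ (2 * m + 1) * (1026 / 1000) ≤ 8 * (m : ℝ) ^ (2 * m + 1) := by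
  have hm0 : (0 : ℝ) < m := by positivity
  have h3' : (3 : ℝ) ≤ m := by exact_mod_cast h3
  set y : ℝ := ((m : ℝ) + 1) / m with hy
  have hy1 : 1 ≤ y := by rw [hy, le_div_iff₀ hm0]; linarith
  have hy0 : 0 < y := by linarith
  have hlog : Real.log y ≤ (y - y⁻¹) / 2 := by
    have h := Real.self_le_sinh_iff.2 (Real.log_nonneg hy1)
    rwa [Real.sinh_log hy0] at h
  have h2 : (y - y⁻¹) / 2 = (2 * (m : ℝ) + 1) / (2 * (m * (m + 1))) := by
    rw [hy, inv_div]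
    field_simp
    ring
  have h4 : ((2 * m + 1 : ℕ) : ℝ) * Real.log y ≤ 2 + 1 / 24 := by
    have h5 : ((2 * m + 1 : ℕ) : ℝ) * Real.log y
        ≤ (2 * (m : ℝ) + 1) * ((2 * (m : ℝ) + 1) / (2 * (m * (m + 1)))) := by
      push_cast
      rw [← h2]
      gcongr
    refine h5.trans ?_
    rw [← mul_div_assoc, div_le_iff₀ (by positivity)]
    nlinarith
  have h6 : y ^ (2 * m + 1) ≤ 8000 / 1026 := by
    have h7 : y ^ (2 * m + 1) = Real.exp (((2 * m + 1 : ℕ) : ℝ) * Real.log y) := by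
      rw [Real.exp_nat_mul, Real.exp_log hy0]
    rw [h7]
    refine (Real.exp_le_exp.2 h4).trans ?_
    have he1 := Real.exp_one_lt_d9
    have he0 : 0 < Real.exp 1 := Real.exp_pos 1
    have e2 : Real.exp (2 + 1 / 24) = Real.exp 1 * Real.exp 1 * Real.exp (1 / 24) := by
      rw [← Real.exp_add, ← Real.exp_add]
      norm_num
    have e3 : Real.exp (1 / 24) ≤ 24 / 23 := by
      have h8 := Real.add_one_le_exp (-(1 / 24) : ℝ)
      rw [Real.exp_neg] at h8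
      have h9 : (23 / 24 : ℝ) ≤ (Real.exp (1 / 24))⁻¹ := by linarith
      rw [le_inv_comm₀ (by norm_num) (Real.exp_pos _)] at h9
      linarith [h9, (by norm_num : (23 / 24 : ℝ)⁻¹ = 24 / 23)]
    rw [e2]
    have e4 : Real.exp 1 * Real.exp 1 ≤ 2.7182818286 * 2.7182818286 := by
      gcongr
    calc Real.exp 1 * Real.exp 1 * Real.exp (1 / 24)
        ≤ (2.7182818286 * 2.7182818286) * (24 / 23) := by gcongr
      _ ≤ 8000 / 1026 := by norm_num
  rw [hy, div_pow, div_le_iff₀ (by positivity)] at h6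
  have : (0 : ℝ) < (m : ℝ) ^ (2 * m + 1) := by positivity
  linarith

/-- `(n+1)^(2n+1) (1.026)^n < 8^n (n!)^2` for `n ≥ 2`. -/
theorem pow_lt_fac {n : ℕ} (hn : 2 ≤ n) :
    ((n : ℝ) + 1) ^ (2 * n + 1) * (1026 / 1000) ^ n < 8 ^ n * (n.factorial : ℝ) ^ 2 := by
  induction n, hn using Nat.le_induction with
  | base => norm_num [Nat.factorial]
  | succ n hn ih =>
    have h := ratio_le (m := n + 1) (by omega)
    push_cast at h ⊢
    have hn0 : (0 : ℝ) < (n : ℝ) + 1 := by positivity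
    have e1 : ((n : ℝ) + 1 + 1) ^ (2 * (n + 1) + 1) * (1026 / 1000) ≤
        8 * ((n : ℝ) + 1) ^ (2 * (n + 1) + 1) := h
    have e2 : ((n : ℝ) + 1) ^ (2 * (n + 1) + 1) = ((n : ℝ) + 1) ^ 2 * ((n : ℝ) + 1) ^ (2 * n + 1) := by
      rw [← pow_add]; congr 1; ring
    have e3 : ((n : ℝ) + 1) ^ 2 * (((n : ℝ) + 1) ^ (2 * n + 1) * (1026 / 1000) ^ n)
        < ((n : ℝ) + 1) ^ 2 * (8 ^ n * (n.factorial : ℝ) ^ 2) := by gcongr
    rw [Nat.factorial_succ]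
    push_cast
    calc ((n : ℝ) + 1 + 1) ^ (2 * (n + 1) + 1) * (1026 / 1000) ^ (n + 1)
        = (((n : ℝ) + 1 + 1) ^ (2 * (n + 1) + 1) * (1026 / 1000)) * (1026 / 1000) ^ n := by ring
      _ ≤ (8 * ((n : ℝ) + 1) ^ (2 * (n + 1) + 1)) * (1026 / 1000) ^ n := by gcongr
      _ = 8 * (((n : ℝ) + 1) ^ 2 * (((n : ℝ) + 1) ^ (2 * n + 1) * (1026 / 1000) ^ n)) := by
          rw [e2]; ring
      _ < 8 * (((n : ℝ) + 1) ^ 2 * (8 ^ n * (n.factorial : ℝ) ^ 2)) := by gcongr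
      _ = 8 ^ (n + 1) * (((n : ℝ) + 1) * n.factorial) ^ 2 := by ring

end Vale.Agent.P254.EX
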