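import Vale.Agent.P254.EX.LeafAB
import Vale.Agent.P254.EX.Jen
import Vale.Agent.P254.EX.Sum
import Vale.Agent.P254.Unc.Stab

/-!
P254, bodies near unconditional bodies: comparison of the second moments.
-/

open MeasureTheory Set Matrix

namespace Vale.Agent.P254.EX

open Unc Unc.FB

variable {n : ℕ}

/-- the second moments -/
noncomputable def mom (K : Set (Fin n → ℝ)) (k : Fin n) : ℝ :=
  (volume K).toReal⁻¹ * ∫ x in K, x k ^ 2

lemma mom_eq {K : Set (Fin n → ℝ)} (hK : IsConvexBody K) (k : Fin n) :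
    mom K k = covMatrix K k k + centroid K k ^ 2 := by
  have h := cov_shift hK.2.1 (volume_pos_of_body hK).ne' (fun _ => 0) k k
  simp only [sub_zero] at h
  rw [mom, pow_two, ← h]
  simp only [pow_two]

lemma cov_pos {K : Set (Fin n → ℝ)} (hK : IsConvexBody K) (k : Fin n) : 0 < covMatrix K k k :=
  (covMatrix_posDef hK).diag_pos

lemma mom_pos {K : Set (Fin n → ℝ)} (hK : IsConvexBody K) (k : Fin n) : 0 < mom K k := by
  rw [mom_eq hK]
  have := cov_pos hK k
  positivity

/-- Hadamard -/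
lemma det_le_prod_mom (hn : 0 < n) {K : Set (Fin n → ℝ)} (hK : IsConvexBody K) :
    (covMatrix K).det ≤ ∏ k, mom K k := by
  have hn0 : (0 : ℝ) < n := by exact_mod_cast hn
  have hB : (Matrix.diagonal fun k => (mom K k)⁻¹).PosSemidef :=
    PosSemidef.diagonal fun k => (inv_pos.2 (mom_pos hK k)).le
  have h := det_mul_det_le hn hB (covMatrix_posSemidef hK.2.1)
  rw [det_diagonal] at h
  have htr : ((Matrix.diagonal fun k => (mom K k)⁻¹) * covMatrix K).trace =
      ∑ k, (mom K k)⁻¹ * covMatrix K k k := by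
    simp only [trace, diag_apply, diagonal_mul]
  have h1 : ∑ k, (mom K k)⁻¹ * covMatrix K k k ≤ n := by
    have : ∑ _k : Fin n, (1 : ℝ) = n := by simp
    rw [← this]
    refine Finset.sum_le_sum fun k _ => ?_
    rw [inv_mul_le_iff₀ (mom_pos hK k), mul_one, mom_eq hK]
    have := sq_nonneg (centroid K k)
    linarith
  have h0 : 0 ≤ ∑ k, (mom K k)⁻¹ * covMatrix K k k :=
    Finset.sum_nonneg fun k _ => mul_nonneg (inv_pos.2 (mom_pos hK k)).le (cov_pos hK k).le
  have h2 : (((Matrix.diagonal fun k => (mom K k)⁻¹) * covMatrix K).trace / n) ^ n ≤ 1 := by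
    rw [htr]
    exact pow_le_one₀ (by positivity) (by rw [div_le_one hn0]; exact h1)
  have hp : 0 < ∏ k, mom K k := Finset.prod_pos fun k _ => mom_pos hK k
  rw [Finset.prod_inv_distrib, inv_mul_eq_div] at h
  have h3 := h.trans h2
  rwa [div_le_one hp] at h3

lemma log_vol {VU VK : ℝ} (hK : 0 < VK) (hU : 0 < VU)
    (hq : (1 - 1 / 10 ^ 24) ^ n * VU ≤ VK) :
    Real.log (VU / VK) ≤ n * (101 / 10 ^ 26) := by
  have hq0 : (0 : ℝ) < 1 - 1 / 10 ^ 24 := by norm_num
  have h1 : VU / VK ≤ ((1 - 1 / 10 ^ 24 : ℝ)⁻¹) ^ n := by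
    rw [inv_pow, div_le_iff₀ hK, inv_mul_eq_div, le_div_iff₀ (by positivity), mul_comm]
    exact hq
  have h2 := Real.log_le_log (div_pos hU hK) h1
  rw [Real.log_pow] at h2
  have h3 := Real.log_le_sub_one_of_pos (inv_pos.2 hq0)
  have h4 : ((1 : ℝ) - 1 / 10 ^ 24)⁻¹ - 1 ≤ 101 / 10 ^ 26 := by norm_num
  exact h2.trans (mul_le_mul_of_nonneg_left (h3.trans h4) (Nat.cast_nonneg n))

lemma log_1e8 : Real.log (2 * 5e7) ≤ 19 := by
  rw [Real.log_le_iff_le_exp (by norm_num)]
  have h1 := Real.exp_one_gt_d9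
  have h2 : Real.exp 19 = Real.exp 1 ^ 19 := by
    rw [← Real.exp_nat_mul]; norm_num
  rw [h2]
  have h3 : (2.7 : ℝ) ^ 19 ≤ Real.exp 1 ^ 19 := by
    gcongr
    linarith
  refine le_trans ?_ h3
  norm_num

theorem core {U K : Set (Fin n → ℝ)} (hU : IsConvexBody U) (hu : Uncond U)
    (hK : IsConvexBody K) (hKU : K ⊆ U)
    (hq : (1 - 1 / 10 ^ 24) ^ n * (volume U).toReal ≤ (volume K).toReal) :
    ∏ k, mom K k ≤ Real.exp (n * (245 / 10000)) * ∏ k, mom U k := by
  have hVK := volume_pos_of_body hK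
  have hVU := volume_pos_of_body hU
  have hσ := fun k => mom_pos hU k
  have hm := fun k => mom_pos hK k
  set b : Fin n → ℝ := fun k =>
    (volume K).toReal⁻¹ * ∫ x in K, Real.log (1 + x k ^ 2 / (5e7 * mom U k)) with hb
  have hρ : ∀ k, 0 < 5e7 * mom U k := fun k => by have := hσ k; positivity
  have hlog := log_vol hVK hVU hq
  have hUpsi : ∀ k, (volume U).toReal⁻¹ * ∫ x in U, psi (5e7 * mom U k) (x k) ≤ 1 / 5e7 := by
    intro k
    have h1 : ∫ x in U, psi (5e7 * mom U k) (x k) ≤ ∫ x in U, x k ^ 2 / (5e7 * mom U k) := by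
      refine setIntegral_mono ?_ ?_ fun x => psi_le (hρ k) _
      · exact ((psi_cont (hρ k)).comp
          (continuous_apply k)).continuousOn.integrableOn_compact hU.2.1
      · exact (by fun_prop : Continuous fun x : Fin n → ℝ =>
          x k ^ 2 / (5e7 * mom U k)).continuousOn.integrableOn_compact hU.2.1
    rw [integral_div] at h1
    calc (volume U).toReal⁻¹ * ∫ x in U, psi (5e7 * mom U k) (x k)
        ≤ (volume U).toReal⁻¹ * ((∫ x in U, x k ^ 2) / (5e7 * mom U k)) := by
          apply mul_le_mul_of_nonneg_left h1 (by positivity)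
      _ = mom U k / (5e7 * mom U k) := by rw [mom]; ring
      _ = 1 / 5e7 := by
          have := (hσ k).ne'
          field_simp
  have h1 : ∀ S : Finset (Fin n), ∑ k ∈ S, (5e7 * b k) ≤ S.card + n * (57 / 100000) := by
    intro S
    have hj := jen hU hu hK.2.1 hVK hVU hKU (a := 177 / 10 ^ 15) (by norm_num) (by norm_num)
      (fun k => 5e7 * mom U k) hρ S
    have e1 : ∑ k ∈ S, (volume K).toReal⁻¹ * ∫ x in K, psi (5e7 * mom U k) (x k) =
        ∑ k ∈ S, b k := rfl
    have e2 : ∑ k ∈ S, (volume U).toReal⁻¹ * ∫ x in U, psi (5e7 * mom U k) (x k) ≤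
        S.card * (1 / 5e7) := by
      rw [← nsmul_eq_mul, ← Finset.sum_const]
      exact Finset.sum_le_sum fun k _ => hUpsi k
    have e3 : (S.card : ℝ) ≤ n := by
      have := Finset.card_le_univ S
      rw [Fintype.card_fin] at this
      exact_mod_cast this
    rw [e1] at hj
    rw [← Finset.mul_sum]
    have hn0 : (0 : ℝ) ≤ n := Nat.cast_nonneg n
    norm_num at hj e2 hlog ⊢
    linarith
  have h2 : ∀ k, Real.log (mom K k / mom U k) ≤ 19 + 8e-6 * (5e7 * b k) := by
    intro k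
    have hA := leafA hK.1 hK.2.1 hVK k (hρ k)
    change mom K k ≤ 2 * (5e7 * mom U k) * Real.exp (400 * b k) at hA
    have h3 : mom K k / mom U k ≤ 2 * 5e7 * Real.exp (400 * b k) := by
      rw [div_le_iff₀ (hσ k)]
      linarith
    have h4 := Real.log_le_log (div_pos (hm k) (hσ k)) h3
    rw [Real.log_mul (by norm_num) (Real.exp_pos _).ne', Real.log_exp] at h4
    have h5 := log_1e8
    have h6 : (8e-6 : ℝ) * (5e7 * b k) = 400 * b k := by ring
    rw [h6]
    linarith
  have h3 : ∀ k, 5e7 * b k ≤ 2 → mom K k / mom U k ≤ 5e7 * b k + 0.01284 := by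
    intro k hk
    have hB := leafB hK.1 hK.2.1 hVK k (hσ k) hk
    rw [div_le_iff₀ (hσ k), mul_comm]
    exact hB
  have hs := sumS (fun k => mom K k / mom U k) (fun k => 5e7 * b k) (ε₁ := 57 / 100000)
    (ε₂ := 0.01284) (L := 19) (c := 8e-6) (fun k => div_pos (hm k) (hσ k)) (by norm_num)
    (by norm_num) (by norm_num) h1 h2 h3
  have hn0 : (0 : ℝ) ≤ n := Nat.cast_nonneg n
  have h4 : ∑ k, Real.log (mom K k / mom U k) ≤ n * (245 / 10000) := by
    refine hs.trans (mul_le_mul_of_nonneg_left ?_ hn0)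
    norm_num
  have h5 : ∏ k, (mom K k / mom U k) ≤ Real.exp (n * (245 / 10000)) := by
    have e : ∏ k, (mom K k / mom U k) = Real.exp (∑ k, Real.log (mom K k / mom U k)) := by
      rw [Real.exp_sum]
      exact Finset.prod_congr rfl fun k _ => (Real.exp_log (div_pos (hm k) (hσ k))).symm
    rw [e]
    exact Real.exp_le_exp.2 h4
  rw [Finset.prod_div_distrib, div_le_iff₀ (Finset.prod_pos fun k _ => hσ k)] at h5
  exact h5

end Vale.Agent.P254.EX
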