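import Mathlib
import Vale.Agent.P254.Unc.PL

/-! # Tails of coordinates on convex bodies (leaves of Theorem X) -/

open MeasureTheory Set
open scoped ENNReal

namespace Vale.Agent.P254.EX

variable {n : ℕ} {K : Set (Fin n → ℝ)}

theorem sqrt4 {a : ℝ} : (a ^ 4) ^ ((1 : ℝ) / 2) = a ^ 2 := by
  rw [← Real.sqrt_eq_rpow, show a ^ 4 = (a ^ 2) ^ 2 by ring, Real.sqrt_sq (sq_nonneg a)]

theorem intOn (hk : IsCompact K) {f : (Fin n → ℝ) → ℝ} (hf : Continuous f) : IntegrableOn f K :=
  hf.continuousOn.integrableOn_compact hk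

/-- Cauchy-Schwarz on a set of finite measure -/
theorem cs_set {T : Set (Fin n → ℝ)} (hT : volume T ≠ ∞) {f : (Fin n → ℝ) → ℝ}
    (h1 : IntegrableOn f T) (h2 : IntegrableOn (fun x => f x ^ 2) T) :
    (∫ x in T, f x) ^ 2 ≤ (volume T).toReal * ∫ x in T, f x ^ 2 := by
  have key : ∀ l : ℝ, 0 ≤ (∫ x in T, f x ^ 2) - 2 * l * (∫ x in T, f x) + l ^ 2 * (volume T).toReal := by
    intro l
    have h3 : 0 ≤ ∫ x in T, (f x - l) ^ 2 := integral_nonneg fun x => sq_nonneg _
    have hc : IntegrableOn (fun _ : Fin n → ℝ => l ^ 2) T := integrableOn_const hT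
    have h4 : ∫ x in T, (f x - l) ^ 2 = (∫ x in T, f x ^ 2) - 2 * l * (∫ x in T, f x)
        + l ^ 2 * (volume T).toReal := by
      have : ∀ x, (f x - l) ^ 2 = f x ^ 2 - 2 * l * f x + l ^ 2 := fun x => by ring
      simp_rw [this]
      have e1 : ∫ x in T, (f x ^ 2 - 2 * l * f x + l ^ 2)
          = (∫ x in T, (f x ^ 2 - 2 * l * f x)) + ∫ _x in T, l ^ 2 :=
        integral_add (h2.sub (h1.const_mul _)) hc
      have e2 : ∫ x in T, (f x ^ 2 - 2 * l * f x)
          = (∫ x in T, f x ^ 2) - ∫ x in T, 2 * l * f x := integral_sub h2 (h1.const_mul _)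
      rw [e1, e2, integral_const_mul, setIntegral_const]
      simp only [smul_eq_mul, Measure.real]
      ring
    rw [h4] at h3
    exact h3
  rcases eq_or_lt_of_le (ENNReal.toReal_nonneg : 0 ≤ (volume T).toReal) with h0 | h0
  · have hz : volume T = 0 := by
      rcases (ENNReal.toReal_eq_zero_iff _).1 h0.symm with h | h
      · exact h
      · exact absurd h hT
    rw [setIntegral_measure_zero _ hz, ← h0]
    simp
  · have := key ((∫ x in T, f x) / (volume T).toReal)
    have h5 := mul_nonneg h0.le this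
    have h6 : (volume T).toReal * ((∫ x in T, f x ^ 2) -
        2 * ((∫ x in T, f x) / (volume T).toReal) * (∫ x in T, f x)
        + ((∫ x in T, f x) / (volume T).toReal) ^ 2 * (volume T).toReal)
        = (volume T).toReal * (∫ x in T, f x ^ 2) - (∫ x in T, f x) ^ 2 := by
      field_simp
      ring
    rw [h6] at h5
    linarith

theorem tailT446 (hc : Convex ℝ K) (hk : IsCompact K) (hV : 0 < (volume K).toReal) (k : Fin n)
    {r : ℝ} (hr : 0 < r)
    (hp : 400 * (volume (K ∩ {x | r < |x k|})).toReal ≤ (volume K).toReal) :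
    ∫ x in K, x k ^ 4 ≤ 2 * r ^ 4 * (volume K).toReal := by
  have hKf : volume K ≠ ∞ := hk.measure_lt_top.ne
  have hKm : MeasurableSet K := hk.measurableSet
  have hm : Measurable fun x : Fin n → ℝ => |x k| := (measurable_pi_apply k).abs
  set T : Set (Fin n → ℝ) := K ∩ {x | r < |x k|} with hT
  set S : Set (Fin n → ℝ) := K ∩ {x | 3 * r < |x k|} with hS
  set G : Set (Fin n → ℝ) := K ∩ {x | |x k| ≤ r} with hG
  have hTm : MeasurableSet T := hKm.inter (measurableSet_lt measurable_const hm)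
  have hSm : MeasurableSet S := hKm.inter (measurableSet_lt measurable_const hm)
  have hGm : MeasurableSet G := hKm.inter (measurableSet_le hm measurable_const)
  have hTK : T ⊆ K := inter_subset_left
  have hSK : S ⊆ K := inter_subset_left
  have hGK : G ⊆ K := inter_subset_left
  have hTf : volume T ≠ ∞ := ne_top_of_le_ne_top hKf (measure_mono hTK)
  have hGf : volume G ≠ ∞ := ne_top_of_le_ne_top hKf (measure_mono hGK)
  have c4 : Continuous fun x : Fin n → ℝ => x k ^ 4 := (continuous_apply k).pow 4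
  have c2 : Continuous fun x : Fin n → ℝ => x k ^ 2 := (continuous_apply k).pow 2
  have i4 : IntegrableOn (fun x : Fin n → ℝ => x k ^ 4) K := intOn hk c4
  have i2 : IntegrableOn (fun x : Fin n → ℝ => x k ^ 2) K := intOn hk c2
  -- Prekopa-Leindler
  have hPL := Vale.Agent.P254.Unc.pl_pi (s := (1 : ℝ) / 2) (t := (1 : ℝ) / 2) (by norm_num)
    (by norm_num) (by norm_num) n
    (S.indicator fun x => ENNReal.ofReal (x k ^ 4))
    (G.indicator fun _ => 1)
    (T.indicator fun x => ENNReal.ofReal (9 * x k ^ 2))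
    ((c4.measurable.ennreal_ofReal).indicator hSm)
    (measurable_const.indicator hGm)
    (((c2.measurable.const_mul 9).ennreal_ofReal).indicator hTm)
    (by
      intro x y
      by_cases hx : x ∈ S
      swap
      · rw [indicator_of_notMem hx, ENNReal.zero_rpow_of_pos (by norm_num), zero_mul]
        exact zero_le
      by_cases hy : y ∈ G
      swap
      · rw [indicator_of_notMem hy, ENNReal.zero_rpow_of_pos (by norm_num), mul_zero]
        exact zero_le
      have hz : ((1 : ℝ) / 2) • x + ((1 : ℝ) / 2) • y ∈ K :=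
        hc hx.1 hy.1 (by norm_num) (by norm_num) (by norm_num)
      have hzk : (((1 : ℝ) / 2) • x + ((1 : ℝ) / 2) • y) k = (x k + y k) / 2 := by
        simp only [Pi.add_apply, Pi.smul_apply, smul_eq_mul]; ring
      have hx3 : 3 * r < |x k| := hx.2
      have hy1 : |y k| ≤ r := hy.2
      have hlow : |x k| / 3 ≤ |(x k + y k) / 2| := by
        rw [abs_div, abs_of_pos (by norm_num : (0 : ℝ) < 2)]
        have h1 : |x k| - |y k| ≤ |x k + y k| := by
          have := abs_sub_abs_le_abs_sub (x k) (-(y k))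
          rwa [abs_neg, sub_neg_eq_add] at this
        linarith
      have hzT : ((1 : ℝ) / 2) • x + ((1 : ℝ) / 2) • y ∈ T := by
        refine ⟨hz, ?_⟩
        show r < |(((1 : ℝ) / 2) • x + ((1 : ℝ) / 2) • y) k|
        rw [hzk]
        linarith
      rw [indicator_of_mem hx, indicator_of_mem hy, indicator_of_mem hzT, ENNReal.one_rpow, mul_one,
        ENNReal.ofReal_rpow_of_nonneg (by positivity) (by norm_num), sqrt4, hzk]
      apply ENNReal.ofReal_le_ofReal
      have h2 := mul_self_le_mul_self (by positivity) hlow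
      have h3 : |x k| / 3 * (|x k| / 3) = (x k) ^ 2 / 9 := by
        rw [div_mul_div_comm, abs_mul_abs_self]; ring
      have h4 : |(x k + y k) / 2| * |(x k + y k) / 2| = ((x k + y k) / 2) ^ 2 := by
        rw [abs_mul_abs_self]; ring
      rw [h3, h4] at h2
      linarith)
  rw [lintegral_indicator hSm, lintegral_indicator hGm, lintegral_indicator hTm,
    ← ofReal_integral_eq_lintegral_ofReal (i4.mono_set hSK) (ae_of_all _ fun x => by positivity),
    ← ofReal_integral_eq_lintegral_ofReal ((i2.mono_set hTK).const_mul 9)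
      (ae_of_all _ fun x => by positivity), setLIntegral_const, one_mul,
    ← ENNReal.ofReal_toReal hGf,
    ENNReal.ofReal_rpow_of_nonneg (integral_nonneg fun x => by positivity) (by norm_num),
    ENNReal.ofReal_rpow_of_nonneg ENNReal.toReal_nonneg (by norm_num),
    ← ENNReal.ofReal_mul (Real.rpow_nonneg (integral_nonneg fun x => by positivity) _),
    ENNReal.ofReal_le_ofReal_iff (integral_nonneg fun x => by positivity), integral_const_mul,
    ← Real.sqrt_eq_rpow, ← Real.sqrt_eq_rpow] at hPL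
  set F : ℝ := ∫ x in S, x k ^ 4 with hF
  set A : ℝ := ∫ x in T, x k ^ 2 with hA
  set M : ℝ := ∫ x in K, x k ^ 4 with hM
  set V : ℝ := (volume K).toReal with hVd
  set v : ℝ := (volume T).toReal with hv
  have hF0 : 0 ≤ F := integral_nonneg fun x => by positivity
  have hA0 : 0 ≤ A := integral_nonneg fun x => by positivity
  have hM0 : 0 ≤ M := integral_nonneg fun x => by positivity
  have hv0 : 0 ≤ v := ENNReal.toReal_nonneg
  -- volume of G
  have hGv : (volume G).toReal = V - v := by
    have h1 : K = G ∪ T := by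
      ext x
      constructor
      · intro hx
        rcases le_or_gt (|x k|) r with h | h
        · exact Or.inl ⟨hx, h⟩
        · exact Or.inr ⟨hx, h⟩
      · rintro (h | h) <;> exact h.1
    have h2 : Disjoint G T := by
      rw [disjoint_left]
      rintro x hx hx'
      exact absurd (show r < |x k| from hx'.2) (not_lt.2 (show |x k| ≤ r from hx.2))
    have h3 : volume K = volume G + volume T := by
      conv_lhs => rw [h1]
      exact measure_union h2 hTm
    rw [hVd, h3, ENNReal.toReal_add hGf hTf]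
    ring
  have hFG : F * (V - v) ≤ 81 * A ^ 2 := by
    have h1 := mul_self_le_mul_self (by positivity) hPL
    rw [hGv] at h1
    have hVv : 0 ≤ V - v := by linarith
    have h2 : √F * √(V - v) * (√F * √(V - v)) = F * (V - v) := by
      have e1 := Real.mul_self_sqrt hF0
      have e2 := Real.mul_self_sqrt hVv
      calc √F * √(V - v) * (√F * √(V - v)) = (√F * √F) * (√(V - v) * √(V - v)) := by ring
        _ = _ := by rw [e1, e2]
    rw [h2] at h1
    nlinarith [h1]
  have hCS : A ^ 2 ≤ v * M := by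
    have i22 : IntegrableOn (fun x : Fin n → ℝ => (x k ^ 2) ^ 2) T := by
      have : (fun x : Fin n → ℝ => (x k ^ 2) ^ 2) = fun x => x k ^ 4 := by ext x; ring
      rw [this]; exact i4.mono_set hTK
    have h1 := cs_set hTf (i2.mono_set hTK) i22
    have h2 : ∫ x in T, (x k ^ 2) ^ 2 ≤ M := by
      have : ∀ x : Fin n → ℝ, (x k ^ 2) ^ 2 = x k ^ 4 := fun x => by ring
      simp_rw [this]
      exact setIntegral_mono_set i4 (ae_of_all _ fun x => by positivity) hTK.eventuallyLE
    exact h1.trans (mul_le_mul_of_nonneg_left h2 hv0)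
  have hMle : M ≤ F + r ^ 4 * V + 81 * r ^ 4 * v := by
    have j1 : IntegrableOn (S.indicator fun x : Fin n → ℝ => x k ^ 4) K := i4.indicator hSm
    have j2 : IntegrableOn (fun _ : Fin n → ℝ => r ^ 4) K := integrableOn_const hKf
    have j3 : IntegrableOn (T.indicator fun _ : Fin n → ℝ => 81 * r ^ 4) K :=
      (integrableOn_const hKf : IntegrableOn (fun _ : Fin n → ℝ => 81 * r ^ 4) K).indicator hTm
    have h1 : M ≤ ∫ x in K, (S.indicator (fun x : Fin n → ℝ => x k ^ 4) x + r ^ 4)
        + T.indicator (fun _ : Fin n → ℝ => 81 * r ^ 4) x := by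
      refine setIntegral_mono_on i4 ((j1.add j2).add j3) hKm fun x hx => ?_
      have hr4 : 0 ≤ r ^ 4 := by positivity
      by_cases h3 : x ∈ S
      · rw [indicator_of_mem h3]
        have : 0 ≤ T.indicator (fun _ : Fin n → ℝ => 81 * r ^ 4) x :=
          indicator_nonneg (fun _ _ => by positivity) x
        linarith
      · rw [indicator_of_notMem h3]
        have h3' : |x k| ≤ 3 * r := by
          by_contra hcon
          exact h3 ⟨hx, not_le.1 hcon⟩
        by_cases h4 : x ∈ T
        · rw [indicator_of_mem h4]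
          have : x k ^ 4 ≤ (3 * r) ^ 4 := by
            rw [← Even.pow_abs (by decide : Even 4) (x k)]
            exact pow_le_pow_left₀ (abs_nonneg _) h3' 4
          have e : (3 * r) ^ 4 = 81 * r ^ 4 := by ring
          linarith
        · rw [indicator_of_notMem h4]
          have h4' : |x k| ≤ r := by
            by_contra hcon
            exact h4 ⟨hx, not_le.1 hcon⟩
          have : x k ^ 4 ≤ r ^ 4 := by
            rw [← Even.pow_abs (by decide : Even 4) (x k)]
            exact pow_le_pow_left₀ (abs_nonneg _) h4' 4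
          linarith
    have e1 : ∫ x in K, (S.indicator (fun x : Fin n → ℝ => x k ^ 4) x + r ^ 4)
        + T.indicator (fun _ : Fin n → ℝ => 81 * r ^ 4) x
        = (∫ x in K, (S.indicator (fun x : Fin n → ℝ => x k ^ 4) x + r ^ 4))
          + ∫ x in K, T.indicator (fun _ : Fin n → ℝ => 81 * r ^ 4) x :=
      integral_add (j1.add j2) j3
    have e2 : ∫ x in K, (S.indicator (fun x : Fin n → ℝ => x k ^ 4) x + r ^ 4)
        = (∫ x in K, S.indicator (fun x : Fin n → ℝ => x k ^ 4) x) + ∫ _x in K, r ^ 4 :=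
      integral_add j1 j2
    rw [e1, e2, setIntegral_indicator hSm,
      setIntegral_indicator hTm, inter_eq_self_of_subset_right hSK,
      inter_eq_self_of_subset_right hTK, setIntegral_const, setIntegral_const] at h1
    simp only [smul_eq_mul, Measure.real] at h1
    linarith [h1]
  have hVv : (399 / 400) * V ≤ V - v := by linarith
  have h7 : F * ((399 / 400) * V) ≤ 81 * ((V / 400) * M) := by
    calc F * ((399 / 400) * V) ≤ F * (V - v) := mul_le_mul_of_nonneg_left hVv hF0
      _ ≤ 81 * A ^ 2 := hFG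
      _ ≤ 81 * (v * M) := by linarith
      _ ≤ 81 * ((V / 400) * M) := by
        have : v * M ≤ (V / 400) * M := mul_le_mul_of_nonneg_right (by linarith) hM0
        linarith
  have h8 : 399 * F ≤ 81 * M := by
    have : V * (399 * F) ≤ V * (81 * M) := by nlinarith [h7]
    exact le_of_mul_le_mul_left this hV
  have h9 : r ^ 4 * v ≤ r ^ 4 * (V / 400) := mul_le_mul_of_nonneg_left (by linarith) (by positivity)
  have h10 : 0 ≤ r ^ 4 * V := by positivity
  nlinarith [h8, h9, h10, hMle]

theorem psi_cont (k : Fin n) {ρ : ℝ} (hρ : 0 < ρ) :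
    Continuous fun x : Fin n → ℝ => Real.log (1 + x k ^ 2 / ρ) := by
  refine Continuous.log (by fun_prop) fun x => ?_
  positivity

theorem psi_nonneg (k : Fin n) {ρ : ℝ} (hρ : 0 < ρ) (x : Fin n → ℝ) :
    0 ≤ Real.log (1 + x k ^ 2 / ρ) := by
  refine Real.log_nonneg ?_
  have : 0 ≤ x k ^ 2 / ρ := by positivity
  linarith

/-- Markov's inequality -/
theorem tail_markov (hk : IsCompact K) (k : Fin n) {ρ r : ℝ} (hρ : 0 < ρ) (hr : 0 ≤ r) :
    Real.log (1 + r ^ 2 / ρ) * (volume (K ∩ {x | r < |x k|})).toReal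
      ≤ ∫ x in K, Real.log (1 + x k ^ 2 / ρ) := by
  have hKf : volume K ≠ ∞ := hk.measure_lt_top.ne
  have hKm : MeasurableSet K := hk.measurableSet
  have hm : Measurable fun x : Fin n → ℝ => |x k| := (measurable_pi_apply k).abs
  have hTm : MeasurableSet (K ∩ {x | r < |x k|}) := hKm.inter (measurableSet_lt measurable_const hm)
  have hTf : volume (K ∩ {x | r < |x k|}) ≠ ∞ :=
    ne_top_of_le_ne_top hKf (measure_mono inter_subset_left)
  have hi := intOn hk (psi_cont k hρ)
  have h1 : ∫ x in K ∩ {x | r < |x k|}, Real.log (1 + x k ^ 2 / ρ)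
      ≤ ∫ x in K, Real.log (1 + x k ^ 2 / ρ) :=
    setIntegral_mono_set hi (ae_of_all _ fun x => psi_nonneg k hρ x)
      (inter_subset_left : K ∩ {x | r < |x k|} ⊆ K).eventuallyLE
  have h2 : ∫ _x in K ∩ {x | r < |x k|}, Real.log (1 + r ^ 2 / ρ)
      ≤ ∫ x in K ∩ {x | r < |x k|}, Real.log (1 + x k ^ 2 / ρ) := by
    refine setIntegral_mono_on (integrableOn_const hTf) (hi.mono_set inter_subset_left) hTm
      fun x hx => ?_
    refine Real.log_le_log (by positivity) ?_
    have h3 : r < |x k| := hx.2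
    have h4 : r ^ 2 ≤ x k ^ 2 := by
      rw [← sq_abs (x k)]
      exact pow_le_pow_left₀ hr h3.le 2
    gcongr
  rw [setIntegral_const, smul_eq_mul, Measure.real, mul_comm] at h2
  exact h2.trans h1

/-- second moment from fourth moment -/
theorem sq_le_of_four (hk : IsCompact K) (k : Fin n) {r : ℝ}
    (h4 : ∫ x in K, x k ^ 4 ≤ 2 * r ^ 4 * (volume K).toReal) :
    ∫ x in K, x k ^ 2 ≤ 2 * r ^ 2 * (volume K).toReal := by
  have hKf : volume K ≠ ∞ := hk.measure_lt_top.ne
  have c4 : Continuous fun x : Fin n → ℝ => (x k ^ 2) ^ 2 := ((continuous_apply k).pow 2).pow 2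
  have c2 : Continuous fun x : Fin n → ℝ => x k ^ 2 := (continuous_apply k).pow 2
  have h1 := cs_set hKf (intOn hk c2) (intOn hk c4)
  have h2 : ∫ x in K, (x k ^ 2) ^ 2 = ∫ x in K, x k ^ 4 := by
    congr 1; ext x; ring
  rw [h2] at h1
  have hV : 0 ≤ (volume K).toReal := ENNReal.toReal_nonneg
  have h3 : (∫ x in K, x k ^ 2) ^ 2 ≤ (2 * r ^ 2 * (volume K).toReal) ^ 2 := by
    calc (∫ x in K, x k ^ 2) ^ 2 ≤ (volume K).toReal * ∫ x in K, x k ^ 4 := h1
      _ ≤ (volume K).toReal * (2 * r ^ 4 * (volume K).toReal) := mul_le_mul_of_nonneg_left h4 hV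
      _ ≤ (2 * r ^ 2 * (volume K).toReal) ^ 2 := by
        have : 0 ≤ r ^ 4 * (volume K).toReal ^ 2 := by positivity
        nlinarith [this]
  exact (pow_le_pow_iff_left₀ (integral_nonneg fun x => by positivity) (by positivity)
    (by norm_num)).1 h3

theorem leafA (hc : Convex ℝ K) (hk : IsCompact K) (hV : 0 < (volume K).toReal) (k : Fin n)
    {ρ : ℝ} (hρ : 0 < ρ) :
    (volume K).toReal⁻¹ * ∫ x in K, x k ^ 2 ≤
      2 * ρ * Real.exp (400 * ((volume K).toReal⁻¹ * ∫ x in K, Real.log (1 + x k ^ 2 / ρ))) := by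
  set V : ℝ := (volume K).toReal with hVd
  set P : ℝ := ∫ x in K, Real.log (1 + x k ^ 2 / ρ) with hP
  have hP0 : 0 ≤ P := integral_nonneg fun x => psi_nonneg k hρ x
  set b : ℝ := V⁻¹ * P with hb
  have hb0 : 0 ≤ b := by positivity
  set r : ℝ := √(ρ * Real.exp (400 * b)) with hr
  have hr2 : r ^ 2 = ρ * Real.exp (400 * b) := Real.sq_sqrt (by positivity)
  have hr0 : 0 < r := Real.sqrt_pos.2 (by positivity)
  have hmk := tail_markov hk k hρ hr0.le
  rw [hr2, mul_div_cancel_left₀ _ hρ.ne', ← hP] at hmk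
  have hc1 : 400 * b ≤ Real.log (1 + Real.exp (400 * b)) := by
    rw [Real.le_log_iff_exp_le (by positivity)]
    linarith
  have hc2 : 0 < Real.log (1 + Real.exp (400 * b)) := Real.log_pos (by
    have := Real.exp_pos (400 * b); linarith)
  set v : ℝ := (volume (K ∩ {x | r < |x k|})).toReal with hv
  have hv0 : 0 ≤ v := ENNReal.toReal_nonneg
  have hPb : P = V * b := by rw [hb]; field_simp
  have hp : 400 * v ≤ V := by
    rcases hb0.eq_or_lt with h0 | h0
    · rw [← h0, mul_zero] at hPb
      rw [hPb] at hmk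
      have : v ≤ 0 := by
        by_contra hcon
        have := mul_pos hc2 (not_le.1 hcon)
        linarith
      linarith
    · have h1 : b * (400 * v) ≤ b * V := by
        calc b * (400 * v) = (400 * b) * v := by ring
          _ ≤ Real.log (1 + Real.exp (400 * b)) * v := mul_le_mul_of_nonneg_right hc1 hv0
          _ ≤ P := hmk
          _ = b * V := by rw [hPb]; ring
      exact le_of_mul_le_mul_left h1 h0
  have h4 := tailT446 hc hk hV k hr0 hp
  have h2 := sq_le_of_four hk k h4
  rw [hr2] at h2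
  rw [inv_mul_le_iff₀ hV]
  calc _ ≤ _ := h2
    _ = _ := by ring

theorem leafB (hc : Convex ℝ K) (hk : IsCompact K) (hV : 0 < (volume K).toReal) (k : Fin n)
    {σ : ℝ} (hσ : 0 < σ)
    (hb : 5e7 * ((volume K).toReal⁻¹ * ∫ x in K, Real.log (1 + x k ^ 2 / (5e7 * σ))) ≤ 2) :
    (volume K).toReal⁻¹ * ∫ x in K, x k ^ 2 ≤
      σ * (5e7 * ((volume K).toReal⁻¹ * ∫ x in K, Real.log (1 + x k ^ 2 / (5e7 * σ))) + 0.01284) := by
  have hρ : (0 : ℝ) < 5e7 * σ := by positivity
  set V : ℝ := (volume K).toReal with hVd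
  set P : ℝ := ∫ x in K, Real.log (1 + x k ^ 2 / (5e7 * σ)) with hP
  have hP0 : 0 ≤ P := integral_nonneg fun x => psi_nonneg k hρ x
  set r : ℝ := √(801 * σ) with hr
  have hr2 : r ^ 2 = 801 * σ := Real.sq_sqrt (by positivity)
  have hr0 : 0 < r := Real.sqrt_pos.2 (by positivity)
  have hmk := tail_markov hk k hρ hr0.le
  have hq : 801 * σ / (5e7 * σ) = 801 / 5e7 := by field_simp
  rw [hr2, hq, ← hP] at hmk
  have hc1 : (1.6e-5 : ℝ) ≤ Real.log (1 + 801 / 5e7) := by
    have h := Real.one_sub_inv_le_log_of_pos (show (0 : ℝ) < 1 + 801 / 5e7 by norm_num)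
    refine le_trans ?_ h
    norm_num
  set v : ℝ := (volume (K ∩ {x | r < |x k|})).toReal with hv
  have hv0 : 0 ≤ v := ENNReal.toReal_nonneg
  have hPV : P ≤ 4e-8 * V := by
    have h1 : V⁻¹ * P ≤ 4e-8 := by linarith
    rwa [inv_mul_le_iff₀ hV, mul_comm] at h1
  have hp : 400 * v ≤ V := by
    have h1 : 1.6e-5 * v ≤ 4e-8 * V := (mul_le_mul_of_nonneg_right hc1 hv0).trans (hmk.trans hPV)
    linarith
  have h4 := tailT446 hc hk hV k hr0 hp
  have hr4 : r ^ 4 = (801 * σ) ^ 2 := by rw [← hr2]; ring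
  rw [hr4] at h4
  -- pointwise inequality
  have hpt : ∀ x : Fin n → ℝ, x k ^ 2 ≤
      (5e7 * σ) * Real.log (1 + x k ^ 2 / (5e7 * σ)) + (2 * (5e7 * σ))⁻¹ * x k ^ 4 := by
    intro x
    set t : ℝ := x k ^ 2 / (5e7 * σ) with ht
    have ht0 : 0 ≤ t := by positivity
    have hxt : x k ^ 2 = (5e7 * σ) * t := by rw [ht]; field_simp
    have hx4 : x k ^ 4 = ((5e7 * σ) * t) ^ 2 := by rw [← hxt]; ring
    have h1 : t - t ^ 2 / 2 ≤ Real.log (1 + t) := by
      refine le_trans ?_ (Real.le_log_one_add_of_nonneg ht0)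
      rw [le_div_iff₀ (by positivity)]
      have : 0 ≤ t ^ 3 := by positivity
      nlinarith [this]
    rw [hx4, hxt]
    have h2 : (2 * (5e7 * σ))⁻¹ * ((5e7 * σ) * t) ^ 2 = (5e7 * σ) * (t ^ 2 / 2) := by
      field_simp
    rw [h2, ← mul_add]
    exact mul_le_mul_of_nonneg_left (by linarith) hρ.le
  have c4 : Continuous fun x : Fin n → ℝ => x k ^ 4 := (continuous_apply k).pow 4
  have c2 : Continuous fun x : Fin n → ℝ => x k ^ 2 := (continuous_apply k).pow 2
  have i4 := intOn hk c4
  have iP := intOn hk (psi_cont k hρ)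
  have h5 : ∫ x in K, x k ^ 2 ≤ (5e7 * σ) * P + (2 * (5e7 * σ))⁻¹ * ∫ x in K, x k ^ 4 := by
    have e1 : ∫ x in K, ((5e7 * σ) * Real.log (1 + x k ^ 2 / (5e7 * σ)) + (2 * (5e7 * σ))⁻¹ * x k ^ 4)
        = (∫ x in K, (5e7 * σ) * Real.log (1 + x k ^ 2 / (5e7 * σ)))
          + ∫ x in K, (2 * (5e7 * σ))⁻¹ * x k ^ 4 :=
      integral_add (iP.const_mul _) (i4.const_mul _)
    rw [hP, ← integral_const_mul, ← integral_const_mul, ← e1]
    exact setIntegral_mono (intOn hk c2) ((iP.const_mul _).add (i4.const_mul _)) hpt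
  have h6 : (2 * (5e7 * σ))⁻¹ * ∫ x in K, x k ^ 4 ≤ σ * (0.01284 * V) := by
    rw [inv_mul_le_iff₀ (by positivity)]
    refine h4.trans ?_
    have : 0 ≤ σ ^ 2 * V := by positivity
    nlinarith [this]
  rw [inv_mul_le_iff₀ hV]
  calc ∫ x in K, x k ^ 2 ≤ (5e7 * σ) * P + σ * (0.01284 * V) := by linarith
    _ = V * (σ * (5e7 * (V⁻¹ * P) + 0.01284)) := by
      field_simp

end Vale.Agent.P254.EX
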