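import Mathlib

open MeasureTheory Set

namespace P254X552

/-- Cauchy–Schwarz on a compact set: `(∫_K x_k²)² ≤ |K| ∫_K x_k⁴`. -/
theorem cs_sq {n : ℕ} {K : Set (Fin n → ℝ)} (hk : IsCompact K) (k : Fin n) :
    (∫ x in K, x k ^ 2) ^ 2 ≤ (volume K).toReal * ∫ x in K, x k ^ 4 := by
  set V := (volume K).toReal with hV
  have hVn : 0 ≤ V := ENNReal.toReal_nonneg
  have hfin : volume K ≠ ⊤ := hk.measure_lt_top.ne
  have i2 : IntegrableOn (fun x : Fin n → ℝ => x k ^ 2) K :=
    (by fun_prop : Continuous fun x : Fin n → ℝ => x k ^ 2).continuousOn.integrableOn_compact hk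
  have i4 : IntegrableOn (fun x : Fin n → ℝ => x k ^ 4) K :=
    (by fun_prop : Continuous fun x : Fin n → ℝ => x k ^ 4).continuousOn.integrableOn_compact hk
  set A := ∫ x in K, x k ^ 2 with hA
  set B := ∫ x in K, x k ^ 4 with hB
  rcases eq_or_lt_of_le hVn with h0 | hpos
  · have : volume K = 0 := by
      rcases (ENNReal.toReal_eq_zero_iff _).1 h0.symm with h | h
      · exact h
      · exact absurd h hfin
    have hA0 : A = 0 := by
      rw [hA, Measure.restrict_eq_zero.2 this, integral_zero_measure]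
    rw [hA0, ← h0]; simp
  · -- ∫ (x² - A/V)² ≥ 0
    have h1 : 0 ≤ ∫ x in K, (x k ^ 2 - A / V) ^ 2 := integral_nonneg fun x => sq_nonneg _
    have h2 : ∫ x in K, (x k ^ 2 - A / V) ^ 2 = B - 2 * (A / V) * A + (A / V) ^ 2 * V := by
      have e : ∀ x : Fin n → ℝ, (x k ^ 2 - A / V) ^ 2 =
          x k ^ 4 - 2 * (A / V) * x k ^ 2 + (A / V) ^ 2 := fun x => by ring
      have hc : IntegrableOn (fun _ : Fin n → ℝ => (A / V) ^ 2) K :=
        integrableOn_const hfin
      calc ∫ x in K, (x k ^ 2 - A / V) ^ 2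
          = ∫ x in K, (x k ^ 4 - 2 * (A / V) * x k ^ 2 + (A / V) ^ 2) :=
            integral_congr_ae (Filter.Eventually.of_forall e)
        _ = (∫ x in K, (x k ^ 4 - 2 * (A / V) * x k ^ 2)) + ∫ _x in K, (A / V) ^ 2 :=
            integral_add (i4.sub (i2.const_mul _)) hc
        _ = ((∫ x in K, x k ^ 4) - ∫ x in K, 2 * (A / V) * x k ^ 2) + ∫ _x in K, (A / V) ^ 2 := by
            rw [integral_sub i4 (i2.const_mul _)]
        _ = B - 2 * (A / V) * A + (A / V) ^ 2 * V := by
            rw [integral_const_mul, setIntegral_const]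
            simp only [smul_eq_mul, Measure.real, ← hV, ← hA, ← hB]
            ring
    rw [h2] at h1
    have h3 : A / V * V = A := div_mul_cancel₀ _ hpos.ne'
    have h4 : B * V - A ^ 2 = V * (B - 2 * (A / V) * A + (A / V) ^ 2 * V) := by
      have : (A / V) ^ 2 * V * V = A ^ 2 := by
        rw [show (A / V) ^ 2 * V * V = (A / V * V) ^ 2 by ring, h3]
      have h5 : V * (2 * (A / V) * A) = 2 * A ^ 2 := by
        rw [show V * (2 * (A / V) * A) = 2 * (A / V * V) * A by ring, h3]; ring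
      nlinarith [this, h5]
    have h6 : 0 ≤ V * (B - 2 * (A / V) * A + (A / V) ^ 2 * V) := mul_nonneg hpos.le h1
    nlinarith [h4, h6]

/-- leaf (A), from the statement of tailT for this `K`, `k`. -/
theorem leafA_of {n : ℕ} {K : Set (Fin n → ℝ)} (hk : IsCompact K)
    (hV : 0 < (volume K).toReal) (k : Fin n)
    (tailT : ∀ r : ℝ, 0 < r →
      400 * (volume (K ∩ {x | r < |x k|})).toReal ≤ (volume K).toReal →
      ∫ x in K, x k ^ 4 ≤ 2 * r ^ 4 * (volume K).toReal)
    {ρ : ℝ} (hρ : 0 < ρ) :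
    (volume K).toReal⁻¹ * ∫ x in K, x k ^ 2 ≤ 2 * ρ *
      Real.exp (400 * ((volume K).toReal⁻¹ * ∫ x in K, Real.log (1 + x k ^ 2 / ρ))) := by
  have hfin : volume K ≠ ⊤ := hk.measure_lt_top.ne
  have hcs := cs_sq hk k
  set V := (volume K).toReal with hVd
  set A := ∫ x in K, x k ^ 2 with hA
  set I := ∫ x in K, Real.log (1 + x k ^ 2 / ρ) with hI
  set b := V⁻¹ * I with hb
  have hA0 : 0 ≤ A := integral_nonneg fun x => sq_nonneg _
  have hpos : ∀ x : Fin n → ℝ, 0 < 1 + x k ^ 2 / ρ := fun x => by positivity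
  have hψ0 : ∀ x : Fin n → ℝ, 0 ≤ Real.log (1 + x k ^ 2 / ρ) := fun x =>
    Real.log_nonneg (by have : 0 ≤ x k ^ 2 / ρ := by positivity
                        linarith)
  have hcont : Continuous fun x : Fin n → ℝ => Real.log (1 + x k ^ 2 / ρ) :=
    Continuous.log (by fun_prop) fun x => (hpos x).ne'
  have iψ : IntegrableOn (fun x : Fin n → ℝ => Real.log (1 + x k ^ 2 / ρ)) K :=
    hcont.continuousOn.integrableOn_compact hk
  set r := Real.sqrt (ρ * Real.exp (400 * b)) with hr
  have hrpos : 0 < ρ * Real.exp (400 * b) := by positivity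
  have hr0 : 0 < r := Real.sqrt_pos.2 hrpos
  have hr2 : r ^ 2 = ρ * Real.exp (400 * b) := Real.sq_sqrt hrpos.le
  have hr4 : r ^ 4 = (ρ * Real.exp (400 * b)) ^ 2 := by
    rw [← hr2]; ring
  set L := Real.log (1 + Real.exp (400 * b)) with hL
  have hLb : 400 * b < L := by
    have : Real.log (Real.exp (400 * b)) < L :=
      Real.log_lt_log (Real.exp_pos _) (by linarith)
    rwa [Real.log_exp] at this
  have hL0 : 0 < L := Real.log_pos (by have := Real.exp_pos (400 * b); linarith)
  have hVI : V * b = I := by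
    rw [hb, ← mul_assoc, mul_inv_cancel₀ hV.ne', one_mul]
  -- Markov
  have hmark : (volume (K ∩ {x | r < |x k|})).toReal * L ≤ I := by
    have hms : MeasurableSet {x : Fin n → ℝ | r < |x k|} :=
      (isOpen_lt continuous_const (by fun_prop)).measurableSet
    have hsub : K ∩ {x | r < |x k|} ⊆ K := inter_subset_left
    have hfin' : volume (K ∩ {x : Fin n → ℝ | r < |x k|}) ≠ ⊤ :=
      ((measure_mono hsub).trans_lt hk.measure_lt_top).ne
    have h1 : ∫ x in K ∩ {x | r < |x k|}, L ≤
        ∫ x in K ∩ {x | r < |x k|}, Real.log (1 + x k ^ 2 / ρ) := by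
      refine setIntegral_mono_on (integrableOn_const hfin') (iψ.mono_set hsub)
        (hk.measurableSet.inter hms) ?_
      intro x hx
      have hx' : r < |x k| := hx.2
      refine Real.log_le_log (by positivity) ?_
      have h2 : r ^ 2 ≤ x k ^ 2 := by
        rw [← sq_abs (x k)]
        exact pow_le_pow_left₀ hr0.le hx'.le 2
      have h3 : Real.exp (400 * b) ≤ x k ^ 2 / ρ := by
        rw [le_div_iff₀ hρ]
        calc Real.exp (400 * b) * ρ = r ^ 2 := by rw [hr2]; ring
          _ ≤ _ := h2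
      linarith
    have h4 : ∫ x in K ∩ {x | r < |x k|}, Real.log (1 + x k ^ 2 / ρ) ≤ I :=
      setIntegral_mono_set iψ (Filter.Eventually.of_forall hψ0)
        (Filter.Eventually.of_forall hsub)
    rw [setIntegral_const, smul_eq_mul] at h1
    exact h1.trans h4
  have hp : 400 * (volume (K ∩ {x | r < |x k|})).toReal ≤ V := by
    set p := (volume (K ∩ {x | r < |x k|})).toReal with hp
    have h1 : 400 * p * L ≤ V * L := by
      calc 400 * p * L = 400 * (p * L) := by ring
        _ ≤ 400 * I := by linarith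
        _ = V * (400 * b) := by rw [← hVI]; ring
        _ ≤ V * L := mul_le_mul_of_nonneg_left hLb.le hV.le
    exact le_of_mul_le_mul_right h1 hL0
  have hT := tailT r hr0 hp
  set B := ∫ x in K, x k ^ 4 with hB
  have hA2 : A ^ 2 ≤ 2 * (V * (ρ * Real.exp (400 * b))) ^ 2 := by
    calc A ^ 2 ≤ V * B := hcs
      _ ≤ V * (2 * r ^ 4 * V) := mul_le_mul_of_nonneg_left hT hV.le
      _ = 2 * (V * (ρ * Real.exp (400 * b))) ^ 2 := by rw [hr4]; ring
  set W := V * (ρ * Real.exp (400 * b)) with hW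
  have hW0 : 0 < W := by positivity
  have hAW : A ≤ 2 * W := by
    refine abs_le_of_sq_le_sq' (?_ : A ^ 2 ≤ (2 * W) ^ 2) (by positivity) |>.2
    nlinarith [sq_nonneg W]
  calc V⁻¹ * A ≤ V⁻¹ * (2 * W) := mul_le_mul_of_nonneg_left hAW (by positivity)
    _ = 2 * ρ * Real.exp (400 * b) := by
      rw [hW]; field_simp

end P254X552
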