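import Vale.Agent.P254.EX.TailT

/-! P254, Theorem X, leaves (A) and (B): logarithmic moment controls second moment. -/

open MeasureTheory Set
open scoped ENNReal

namespace Vale.Agent.P254.EX

theorem log_cont {n : ℕ} (k : Fin n) {ρ : ℝ} (hρ : 0 < ρ) :
    Continuous fun x : Fin n → ℝ => Real.log (1 + x k ^ 2 / ρ) := by
  apply Continuous.log
  · fun_prop
  · intro x
    positivity

theorem log_nonneg' {y ρ : ℝ} (hρ : 0 < ρ) : 0 ≤ Real.log (1 + y ^ 2 / ρ) :=
  Real.log_nonneg (by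
    have : 0 ≤ y ^ 2 / ρ := by positivity
    linarith)

/-- Markov. -/
theorem markov_log {n : ℕ} {K : Set (Fin n → ℝ)} (hk : IsCompact K)
    (hV : 0 < (volume K).toReal) (k : Fin n) {ρ r c : ℝ} (hρ : 0 < ρ) (hr : 0 < r) (hc : 0 < c)
    (hcr : c ≤ Real.log (1 + r ^ 2 / ρ))
    (hb : 400 * ((volume K).toReal⁻¹ * ∫ x in K, Real.log (1 + x k ^ 2 / ρ)) ≤ c) :
    400 * (volume (K ∩ {x | r < |x k|})).toReal ≤ (volume K).toReal := by
  have hKm := hk.measurableSet
  have hC : MeasurableSet (K ∩ {x : Fin n → ℝ | r < |x k|}) := hKm.inter (meas_abs_gt k _)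
  have hKf : volume K ≠ ∞ := hk.measure_lt_top.ne
  have hCf : volume (K ∩ {x : Fin n → ℝ | r < |x k|}) ≠ ∞ :=
    ne_top_of_le_ne_top hKf (measure_mono inter_subset_left)
  have hint : IntegrableOn (fun x : Fin n → ℝ => Real.log (1 + x k ^ 2 / ρ)) K :=
    (log_cont k hρ).continuousOn.integrableOn_compact hk
  have h1 : c * (volume (K ∩ {x : Fin n → ℝ | r < |x k|})).toReal ≤
      ∫ x in K, Real.log (1 + x k ^ 2 / ρ) := by
    calc c * (volume (K ∩ {x : Fin n → ℝ | r < |x k|})).toReal =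
        ∫ _ in K ∩ {x : Fin n → ℝ | r < |x k|}, c := by
          rw [setIntegral_const, smul_eq_mul, Measure.real]
          ring
      _ ≤ ∫ x in K ∩ {x : Fin n → ℝ | r < |x k|}, Real.log (1 + x k ^ 2 / ρ) :=
          setIntegral_mono_on (integrableOn_const hCf) (hint.mono_set inter_subset_left) hC (by
            rintro x ⟨-, hx⟩
            have hx' : r < |x k| := hx
            refine hcr.trans (Real.log_le_log (by positivity) ?_)
            have : r ^ 2 ≤ x k ^ 2 := by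
              rw [← sq_abs (x k)]
              gcongr
            gcongr)
      _ ≤ _ := setIntegral_mono_set hint (Filter.Eventually.of_forall fun x => log_nonneg' hρ)
          (Filter.Eventually.of_forall fun x hx => inter_subset_left hx)
  have h2 : 400 * ∫ x in K, Real.log (1 + x k ^ 2 / ρ) ≤ c * (volume K).toReal := by
    have := mul_le_mul_of_nonneg_right hb hV.le
    calc 400 * ∫ x in K, Real.log (1 + x k ^ 2 / ρ) =
        400 * ((volume K).toReal⁻¹ * ∫ x in K, Real.log (1 + x k ^ 2 / ρ)) *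
          (volume K).toReal := by field_simp
      _ ≤ _ := this
  have h3 : c * (400 * (volume (K ∩ {x : Fin n → ℝ | r < |x k|})).toReal) ≤
      c * (volume K).toReal := by linarith
  exact le_of_mul_le_mul_left h3 hc

theorem second_le {n : ℕ} {K : Set (Fin n → ℝ)} (hk : IsCompact K)
    (hV : 0 < (volume K).toReal) (k : Fin n) {r : ℝ} (hr : 0 < r)
    (h4 : ∫ x in K, x k ^ 4 ≤ 2 * r ^ 4 * (volume K).toReal) :
    (volume K).toReal⁻¹ * ∫ x in K, x k ^ 2 ≤ 2 * r ^ 2 := by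
  have hKf : volume K ≠ ∞ := hk.measure_lt_top.ne
  have : IsFiniteMeasure (volume.restrict K) :=
    ⟨by rw [Measure.restrict_apply_univ]; exact lt_top_iff_ne_top.2 hKf⟩
  have h := cs_sq (μ := volume.restrict K) (u := fun x => x k ^ 2) (pow_intOn hk k 2) (by
        refine (pow_intOn hk k 4).congr (Filter.Eventually.of_forall fun x => ?_)
        show x k ^ 4 = (x k ^ 2) ^ 2
        ring)
  rw [Measure.restrict_apply_univ] at h
  have e : ∫ x in K, (x k ^ 2) ^ 2 = ∫ x in K, x k ^ 4 := by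
    refine integral_congr_ae (Filter.Eventually.of_forall fun x => ?_)
    show (x k ^ 2) ^ 2 = x k ^ 4
    ring
  rw [e] at h
  set V := (volume K).toReal
  set S := ∫ x in K, x k ^ 2
  have h5 : S ^ 2 ≤ (2 * r ^ 2 * V) ^ 2 := by
    calc S ^ 2 ≤ V * (2 * r ^ 4 * V) := h.trans (mul_le_mul_of_nonneg_left h4 hV.le)
      _ ≤ (2 * r ^ 2 * V) ^ 2 := by
        have : 0 ≤ (r ^ 2 * V) ^ 2 := sq_nonneg _
        nlinarith
  have h6 : S ≤ 2 * r ^ 2 * V := by
    exact (le_abs_self S).trans (abs_le_of_sq_le_sq h5 (by positivity))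
  rw [inv_mul_le_iff₀ hV]
  linarith

/-- Leaf (A). -/
theorem leafA {n : ℕ} {K : Set (Fin n → ℝ)} (hc : Convex ℝ K) (hk : IsCompact K)
    (hV : 0 < (volume K).toReal) (k : Fin n) {ρ : ℝ} (hρ : 0 < ρ) :
    (volume K).toReal⁻¹ * ∫ x in K, x k ^ 2 ≤
      2 * ρ * Real.exp (400 * ((volume K).toReal⁻¹ * ∫ x in K, Real.log (1 + x k ^ 2 / ρ))) := by
  set b := (volume K).toReal⁻¹ * ∫ x in K, Real.log (1 + x k ^ 2 / ρ) with hb
  set r := Real.sqrt (ρ * Real.exp (400 * b)) with hr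
  have hr0 : 0 < r := Real.sqrt_pos.2 (by positivity)
  have hr2 : r ^ 2 = ρ * Real.exp (400 * b) := Real.sq_sqrt (by positivity)
  have hquo : r ^ 2 / ρ = Real.exp (400 * b) := by
    rw [hr2]; field_simp
  have hlog : 400 * b ≤ Real.log (1 + Real.exp (400 * b)) := by
    calc 400 * b = Real.log (Real.exp (400 * b)) := (Real.log_exp _).symm
      _ ≤ _ := Real.log_le_log (Real.exp_pos _) (by linarith)
  have hpos : 0 < Real.log (1 + Real.exp (400 * b)) :=
    Real.log_pos (by linarith [Real.exp_pos (400 * b)])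
  have hm := markov_log hk hV k (c := Real.log (1 + r ^ 2 / ρ)) hρ hr0
    (by rw [hquo]; exact hpos) le_rfl (by rw [hquo]; exact hlog)
  have h := second_le hk hV k hr0 (tailT hc hk hV k hr0 hm)
  rw [hr2] at h
  linarith

/-- Leaf (B). -/
theorem leafB {n : ℕ} {K : Set (Fin n → ℝ)} (hc : Convex ℝ K) (hk : IsCompact K)
    (hV : 0 < (volume K).toReal) (k : Fin n) {σ : ℝ} (hσ : 0 < σ)
    (hb : 5e7 * ((volume K).toReal⁻¹ * ∫ x in K, Real.log (1 + x k ^ 2 / (5e7 * σ))) ≤ 2) :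
    (volume K).toReal⁻¹ * ∫ x in K, x k ^ 2 ≤
      σ * (5e7 * ((volume K).toReal⁻¹ * ∫ x in K, Real.log (1 + x k ^ 2 / (5e7 * σ))) +
        0.01284) := by
  have hρ : 0 < 5e7 * σ := by positivity
  set ρ := 5e7 * σ with hρd
  set b := (volume K).toReal⁻¹ * ∫ x in K, Real.log (1 + x k ^ 2 / ρ) with hbd
  set r := Real.sqrt (ρ * (16001 / 10 ^ 9)) with hr
  have hr0 : 0 < r := Real.sqrt_pos.2 (by positivity)
  have hr2 : r ^ 2 = ρ * (16001 / 10 ^ 9) := Real.sq_sqrt (by positivity)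
  have hquo : r ^ 2 / ρ = 16001 / 10 ^ 9 := by
    rw [hr2]; field_simp
  have hlog : (16 / 10 ^ 6 : ℝ) ≤ Real.log (1 + 16001 / 10 ^ 9) := by
    have h := Real.one_sub_inv_le_log_of_pos (show (0 : ℝ) < 1 + 16001 / 10 ^ 9 by norm_num)
    refine le_trans ?_ h
    norm_num
  have hm := markov_log hk hV k (c := 16 / 10 ^ 6) hρ hr0 (by norm_num) (by rw [hquo]; exact hlog)
    (by rw [← hbd]; norm_num at hb ⊢; linarith)
  have h4 := tailT hc hk hV k hr0 hm
  have hint : IntegrableOn (fun x : Fin n → ℝ => Real.log (1 + x k ^ 2 / ρ)) K :=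
    (log_cont k hρ).continuousOn.integrableOn_compact hk
  -- pointwise: y ≤ log (1+y) + y²/2
  have hpt : ∀ y : ℝ, 0 ≤ y → y ≤ Real.log (1 + y) + y ^ 2 / 2 := by
    intro y hy
    have h1 := Real.le_log_one_add_of_nonneg hy
    have h2 : y - y ^ 2 / 2 ≤ 2 * y / (y + 2) := by
      rw [le_div_iff₀ (by linarith)]
      nlinarith [mul_nonneg hy (mul_nonneg hy hy)]
    linarith
  have h6 : ∫ x in K, x k ^ 2 / ρ ≤
      (∫ x in K, Real.log (1 + x k ^ 2 / ρ)) + (∫ x in K, x k ^ 4) / (2 * ρ ^ 2) := by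
    have e : ∫ x in K, (Real.log (1 + x k ^ 2 / ρ) + x k ^ 4 / (2 * ρ ^ 2)) =
        (∫ x in K, Real.log (1 + x k ^ 2 / ρ)) + (∫ x in K, x k ^ 4) / (2 * ρ ^ 2) := by
      rw [integral_add hint ((pow_intOn hk k 4).div_const _), integral_div]
    rw [← e]
    refine setIntegral_mono ((pow_intOn hk k 2).div_const _)
      (hint.add ((pow_intOn hk k 4).div_const _)) fun x => ?_
    have := hpt (x k ^ 2 / ρ) (by positivity)
    refine this.trans (le_of_eq ?_)
    have : (x k ^ 2 / ρ) ^ 2 / 2 = x k ^ 4 / (2 * ρ ^ 2) := by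
      field_simp
    rw [this]
  rw [integral_div] at h6
  have hI : ∫ x in K, Real.log (1 + x k ^ 2 / ρ) = b * (volume K).toReal := by
    rw [hbd]; field_simp
  rw [hI] at h6
  have h7 : (∫ x in K, x k ^ 4) / (2 * ρ ^ 2) ≤ (16001 / 10 ^ 9) ^ 2 * (volume K).toReal := by
    rw [div_le_iff₀ (by positivity)]
    refine h4.trans (le_of_eq ?_)
    have : r ^ 4 = (ρ * (16001 / 10 ^ 9)) ^ 2 := by
      rw [← hr2]; ring
    rw [this]
    ring
  have h8 : (∫ x in K, x k ^ 2) / ρ ≤ (b + (16001 / 10 ^ 9) ^ 2) * (volume K).toReal := by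
    linarith
  rw [div_le_iff₀ hρ] at h8
  rw [inv_mul_le_iff₀ hV]
  refine h8.trans ?_
  rw [hρd]
  have h9 : (b + (16001 / 10 ^ 9) ^ 2) * (5e7) ≤ 5e7 * b + 0.01284 := by
    norm_num
    linarith
  calc (b + (16001 / 10 ^ 9) ^ 2) * (volume K).toReal * (5e7 * σ) =
      ((b + (16001 / 10 ^ 9) ^ 2) * 5e7) * ((volume K).toReal * σ) := by ring
    _ ≤ (5e7 * b + 0.01284) * ((volume K).toReal * σ) := by gcongr
    _ = _ := by ring

end Vale.Agent.P254.EX
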