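import Mathlib

open MeasureTheory Set

namespace P254X552

theorem log_quad {u : ℝ} (hu : 0 ≤ u) : u - u ^ 2 / 2 ≤ Real.log (1 + u) := by
  refine le_trans ?_ (Real.le_log_one_add_of_nonneg hu)
  rw [le_div_iff₀ (by linarith)]
  nlinarith [pow_nonneg hu 3]

/-- leaf (B), from the statement of tailT for this `K`, `k`. -/
theorem leafB_of {n : ℕ} {K : Set (Fin n → ℝ)} (hk : IsCompact K)
    (hV : 0 < (volume K).toReal) (k : Fin n)
    (tailT : ∀ r : ℝ, 0 < r →
      400 * (volume (K ∩ {x | r < |x k|})).toReal ≤ (volume K).toReal →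
      ∫ x in K, x k ^ 4 ≤ 2 * r ^ 4 * (volume K).toReal)
    {σ : ℝ} (hσ : 0 < σ)
    (hb : 5e7 * ((volume K).toReal⁻¹ * ∫ x in K, Real.log (1 + x k ^ 2 / (5e7 * σ))) ≤ 2) :
    (volume K).toReal⁻¹ * ∫ x in K, x k ^ 2 ≤
      σ * (5e7 * ((volume K).toReal⁻¹ * ∫ x in K, Real.log (1 + x k ^ 2 / (5e7 * σ)))
        + 0.01284) := by
  have hρ' : (0 : ℝ) < 5e7 * σ := by positivity
  set ρ := (5e7 : ℝ) * σ with hρd
  set V := (volume K).toReal with hVd
  set A := ∫ x in K, x k ^ 2 with hA
  set I := ∫ x in K, Real.log (1 + x k ^ 2 / ρ) with hI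
  set b := V⁻¹ * I with hbd
  have i2 : IntegrableOn (fun x : Fin n → ℝ => x k ^ 2) K :=
    (by fun_prop : Continuous fun x : Fin n → ℝ => x k ^ 2).continuousOn.integrableOn_compact hk
  have i4 : IntegrableOn (fun x : Fin n → ℝ => x k ^ 4) K :=
    (by fun_prop : Continuous fun x : Fin n → ℝ => x k ^ 4).continuousOn.integrableOn_compact hk
  have hpos : ∀ x : Fin n → ℝ, 0 < 1 + x k ^ 2 / ρ := fun x => by positivity
  have hψ0 : ∀ x : Fin n → ℝ, 0 ≤ Real.log (1 + x k ^ 2 / ρ) := fun x =>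
    Real.log_nonneg (by have : 0 ≤ x k ^ 2 / ρ := by positivity
                        linarith)
  have hcont : Continuous fun x : Fin n → ℝ => Real.log (1 + x k ^ 2 / ρ) :=
    Continuous.log (by fun_prop) fun x => (hpos x).ne'
  have iψ : IntegrableOn (fun x : Fin n → ℝ => Real.log (1 + x k ^ 2 / ρ)) K :=
    hcont.continuousOn.integrableOn_compact hk
  set r := Real.sqrt (801 * σ) with hr
  have hrpos : 0 < 801 * σ := by positivity
  have hr0 : 0 < r := Real.sqrt_pos.2 hrpos
  have hr2 : r ^ 2 = 801 * σ := Real.sq_sqrt hrpos.le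
  have hr4 : r ^ 4 = (801 * σ) ^ 2 := by
    rw [← hr2]; ring
  set L := Real.log (1 + 801 / 5e7) with hL
  have hLb : (1.6e-5 : ℝ) ≤ L := by
    have h := Real.one_sub_inv_le_log_of_pos (show (0 : ℝ) < 1 + 801 / 5e7 by norm_num)
    refine le_trans ?_ h
    norm_num
  have hL0 : 0 < L := lt_of_lt_of_le (by norm_num) hLb
  have hVI : V * b = I := by
    rw [hbd, ← mul_assoc, mul_inv_cancel₀ hV.ne', one_mul]
  have hmark : (volume (K ∩ {x | r < |x k|})).toReal * L ≤ I := by
    have hms : MeasurableSet {x : Fin n → ℝ | r < |x k|} :=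
      (isOpen_lt continuous_const (by fun_prop)).measurableSet
    have hsub : K ∩ {x | r < |x k|} ⊆ K := inter_subset_left
    have hfin' : volume (K ∩ {x : Fin n → ℝ | r < |x k|}) ≠ ⊤ :=
      ((measure_mono hsub).trans_lt hk.measure_lt_top).ne
    have h1 : ∫ x in K ∩ {x | r < |x k|}, L ≤
        ∫ x in K ∩ {x | r < |x k|}, Real.log (1 + x k ^ 2 / ρ) := by
      refine setIntegral_mono_on (integrableOn_const hfin') (iψ.mono_set hsub)
        (hk.measurableSet.inter hms) ?_
      intro x hx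
      have hx' : r < |x k| := hx.2
      refine Real.log_le_log (by norm_num) ?_
      have h2 : r ^ 2 ≤ x k ^ 2 := by
        rw [← sq_abs (x k)]
        exact pow_le_pow_left₀ hr0.le hx'.le 2
      have h3 : (801 : ℝ) / 5e7 ≤ x k ^ 2 / ρ := by
        rw [div_le_div_iff₀ (by norm_num) hρ', hρd]
        rw [hr2] at h2
        linarith
      linarith
    have h4 : ∫ x in K ∩ {x | r < |x k|}, Real.log (1 + x k ^ 2 / ρ) ≤ I :=
      setIntegral_mono_set iψ (Filter.Eventually.of_forall hψ0)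
        (Filter.Eventually.of_forall hsub)
    rw [setIntegral_const, smul_eq_mul] at h1
    exact h1.trans h4
  have hp : 400 * (volume (K ∩ {x | r < |x k|})).toReal ≤ V := by
    set p := (volume (K ∩ {x | r < |x k|})).toReal with hp
    have h1 : 400 * p * L ≤ V * L := by
      calc 400 * p * L = 400 * (p * L) := by ring
        _ ≤ 400 * I := by linarith
        _ = V * (400 * b) := by rw [← hVI]; ring
        _ ≤ V * L := mul_le_mul_of_nonneg_left (by linarith) hV.le
    exact le_of_mul_le_mul_right h1 hL0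
  have hT := tailT r hr0 hp
  set B := ∫ x in K, x k ^ 4 with hB
  have hA2 : A ≤ ρ * I + B / (2 * ρ) := by
    calc A ≤ ∫ x in K, (ρ * Real.log (1 + x k ^ 2 / ρ) + x k ^ 4 / (2 * ρ)) := by
          refine integral_mono_ae i2 ((iψ.const_mul ρ).add (i4.div_const _))
            (Filter.Eventually.of_forall fun x => ?_)
          have h := mul_le_mul_of_nonneg_left
            (log_quad (u := x k ^ 2 / ρ) (by positivity)) hρ'.le
          have e : ρ * (x k ^ 2 / ρ - (x k ^ 2 / ρ) ^ 2 / 2) = x k ^ 2 - x k ^ 4 / (2 * ρ) := by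
            field_simp
          rw [e] at h
          show x k ^ 2 ≤ ρ * Real.log (1 + x k ^ 2 / ρ) + x k ^ 4 / (2 * ρ)
          linarith
      _ = (∫ x in K, ρ * Real.log (1 + x k ^ 2 / ρ)) + ∫ x in K, x k ^ 4 / (2 * ρ) :=
          integral_add (iψ.const_mul ρ) (i4.div_const _)
      _ = ρ * I + B / (2 * ρ) := by rw [integral_const_mul, integral_div]
  have hBρ : B / (2 * ρ) ≤ V * (0.01284 * σ) := by
    rw [div_le_iff₀ (by positivity)]
    refine hT.trans ?_
    rw [hr4, hρd]
    have : 0 ≤ V * σ ^ 2 := by positivity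
    nlinarith
  calc V⁻¹ * A ≤ V⁻¹ * (ρ * I + V * (0.01284 * σ)) :=
        mul_le_mul_of_nonneg_left (hA2.trans (by linarith)) (by positivity)
    _ = ρ * b + 0.01284 * σ := by
        rw [mul_add, ← mul_assoc V⁻¹ V, inv_mul_cancel₀ hV.ne', hbd]; ring
    _ = σ * (5e7 * b + 0.01284) := by rw [hρd]; ring

end P254X552
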