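import Vale.Agent.P254.Unc.PL
import Vale.Agent.P254.Unc.FinDefs

/-!
P254, bodies near unconditional bodies: Prekopa-Leindler in square-root coordinates.
-/

open MeasureTheory Set
open scoped ENNReal

namespace Vale.Agent.P254.EX

open Unc

variable {n : ℕ}

/-- the open positive orthant -/
def Orth (n : ℕ) : Set (Fin n → ℝ) := {s | ∀ k, 0 < s k}

/-- squaring the coordinates -/
def sqm (s : Fin n → ℝ) : Fin n → ℝ := fun k => s k ^ 2

lemma orth_open : IsOpen (Orth n) := by
  have : Orth n = ⋂ k, {s : Fin n → ℝ | 0 < s k} := by ext; simp [Orth]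
  rw [this]
  exact isOpen_iInter_of_finite fun k => isOpen_lt continuous_const (continuous_apply k)

lemma sqm_cont : Continuous (sqm (n := n)) := by
  unfold sqm; fun_prop

lemma sqm_image : sqm '' (Orth n) = Orth n := by
  ext x
  constructor
  · rintro ⟨s, hs, rfl⟩ k
    have := hs k
    simp only [sqm]
    positivity
  · intro hx
    refine ⟨fun k => Real.sqrt (x k), fun k => Real.sqrt_pos.2 (hx k), ?_⟩
    funext k
    simp only [sqm]
    exact Real.sq_sqrt (hx k).le

lemma sqm_inj : InjOn (sqm (n := n)) (Orth n) := by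
  intro s hs t ht h
  funext k
  have h1 := congrFun h k
  simp only [sqm] at h1
  exact (pow_left_inj₀ (hs k).le (ht k).le two_ne_zero).1 h1

/-- the derivative of the squaring map -/
noncomputable def dsq (s : Fin n → ℝ) : (Fin n → ℝ) →L[ℝ] (Fin n → ℝ) :=
  LinearMap.toContinuousLinearMap (Matrix.toLin' (Matrix.diagonal fun k => 2 * s k))

lemma dsq_det (s : Fin n → ℝ) : (dsq s).det = ∏ k, (2 * s k) := by
  unfold dsq
  rw [LinearMap.det_toContinuousLinearMap, LinearMap.det_toLin', Matrix.det_diagonal]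

lemma dsq_apply (s v : Fin n → ℝ) (k : Fin n) : dsq s v k = 2 * s k * v k := by
  unfold dsq
  rw [LinearMap.coe_toContinuousLinearMap', Matrix.toLin'_apply, Matrix.mulVec_diagonal]

lemma sqm_deriv (s : Fin n → ℝ) : HasFDerivAt sqm (dsq s) s := by
  rw [hasFDerivAt_pi']
  intro k
  have h1 : HasFDerivAt (fun s : Fin n → ℝ => s k ^ 2)
      ((2 * s k ^ (2 - 1)) • (ContinuousLinearMap.proj (R := ℝ) (φ := fun _ : Fin n => ℝ) k)) s := by
    have h := (ContinuousLinearMap.proj (R := ℝ) (φ := fun _ : Fin n => ℝ) k).hasFDerivAt (x := s)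
    simpa using h.pow 2
  refine h1.congr_fderiv ?_
  ext v
  simp [dsq_apply]

lemma lint_sq (G : (Fin n → ℝ) → ℝ≥0∞) :
    ∫⁻ x in Orth n, G x = ∫⁻ s in Orth n, ENNReal.ofReal (∏ k, (2 * s k)) * G (sqm s) := by
  have h := lintegral_image_eq_lintegral_abs_det_fderiv_mul (μ := volume)
    (s := Orth n) (f := sqm) (f' := dsq) orth_open.measurableSet
    (fun s _ => (sqm_deriv s).hasFDerivWithinAt) sqm_inj G
  rw [sqm_image] at h
  rw [h]
  refine setLIntegral_congr_fun orth_open.measurableSet fun s hs => ?_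
  rw [dsq_det, abs_of_nonneg]
  exact Finset.prod_nonneg fun k _ => by have := hs k; positivity

lemma orth_ae {P : Set (Fin n → ℝ)} (hP : ∀ x ∈ P, 0 ≤ x) :
    (P ∩ Orth n : Set (Fin n → ℝ)) =ᵐ[volume] P := by
  have hnull : ∀ k : Fin n, ∀ᵐ x : Fin n → ℝ ∂volume, x k ≠ 0 := by
    intro k
    have h0 : volume {x : Fin n → ℝ | x k = 0} = 0 := by
      rw [volume_pi]
      exact Measure.pi_hyperplane _ _ _
    filter_upwards [compl_mem_ae_iff.2 h0] with x hx using hx
  filter_upwards [ae_all_iff.2 hnull] with x hx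
  refine propext ⟨fun h => h.1, fun h => ⟨h, fun k => ?_⟩⟩
  exact lt_of_le_of_ne (hP x h k) (hx k).symm

/-- the transformed function -/
noncomputable def tr (P : Set (Fin n → ℝ)) (F : (Fin n → ℝ) → ℝ) : (Fin n → ℝ) → ℝ≥0∞ :=
  (Orth n).indicator fun s => ENNReal.ofReal (∏ k, (2 * s k)) *
    P.indicator (fun x => ENNReal.ofReal (F x)) (sqm s)

lemma tr_meas {P : Set (Fin n → ℝ)} (hPm : MeasurableSet P) {F : (Fin n → ℝ) → ℝ}
    (hF : Continuous F) : Measurable (tr P F) := by
  unfold tr
  refine Measurable.indicator ?_ orth_open.measurableSet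
  refine Measurable.mul ?_ ?_
  · have h : Continuous fun s : Fin n → ℝ => ∏ k, (2 * s k) := by fun_prop
    exact h.measurable.ennreal_ofReal
  · exact (hF.measurable.ennreal_ofReal.indicator hPm).comp sqm_cont.measurable

lemma tr_int {P : Set (Fin n → ℝ)} (hP : ∀ x ∈ P, 0 ≤ x) (hPk : IsCompact P)
    {F : (Fin n → ℝ) → ℝ} (hF : Continuous F) (hF0 : ∀ x, 0 ≤ F x) :
    ∫⁻ s, tr P F s = ENNReal.ofReal (∫ x in P, F x) := by
  unfold tr
  rw [lintegral_indicator orth_open.measurableSet, ← lint_sq (P.indicator _),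
    setLIntegral_indicator hPk.measurableSet, setLIntegral_congr (orth_ae hP),
    ofReal_integral_eq_lintegral_ofReal (hF.continuousOn.integrableOn_compact hPk)
      (Filter.Eventually.of_forall hF0)]

theorem plsq {P : Set (Fin n → ℝ)} (hPc : Convex ℝ P) (hPk : IsCompact P) (hPd : Down P)
    (Φ : Fin n → ℝ → ℝ) (hΦ : ∀ k, Continuous (Φ k)) (C : Fin n → ℝ)
    (h : ∀ k x y, 0 < x → 0 < y →
      4 * x * y * Real.exp (Φ k (x ^ 2) - Φ k (y ^ 2)) ≤ Real.exp (C k) * (x + y) ^ 2) :
    (∫ x in P, Real.exp (∑ k, Φ k (x k))) * (∫ x in P, Real.exp (-∑ k, Φ k (x k))) ≤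
      Real.exp (∑ k, C k) * (volume P).toReal ^ 2 := by
  have hS : Continuous fun x : Fin n → ℝ => ∑ k, Φ k (x k) :=
    continuous_finsetSum _ fun k _ => (hΦ k).comp (continuous_apply k)
  set F₁ : (Fin n → ℝ) → ℝ := fun x => Real.exp (∑ k, Φ k (x k)) with hF₁
  set F₂ : (Fin n → ℝ) → ℝ := fun x => Real.exp (-∑ k, Φ k (x k)) with hF₂
  set F₃ : (Fin n → ℝ) → ℝ := fun _ => Real.exp ((∑ k, C k) / 2) with hF₃
  have c1 : Continuous F₁ := hS.rexp
  have c2 : Continuous F₂ := hS.neg.rexp
  have c3 : Continuous F₃ := continuous_const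
  have hpl := pl_pi (s := 1 / 2) (t := 1 / 2) (by norm_num) (by norm_num) (by norm_num) n
    (tr P F₁) (tr P F₂) (tr P F₃) (tr_meas hPk.measurableSet c1) (tr_meas hPk.measurableSet c2)
    (tr_meas hPk.measurableSet c3) (by
      intro x y
      by_cases hx : x ∈ Orth n
      swap
      · simp [tr, hx]
      by_cases hy : y ∈ Orth n
      swap
      · simp [tr, hy]
      by_cases hx2 : sqm x ∈ P
      swap
      · simp [tr, hx, hx2]
      by_cases hy2 : sqm y ∈ P
      swap
      · simp [tr, hy, hy2]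
      set z : Fin n → ℝ := (1 / 2 : ℝ) • x + (1 / 2 : ℝ) • y with hz
      have hzk : ∀ k, z k = (x k + y k) / 2 := by
        intro k
        simp only [hz, Pi.add_apply, Pi.smul_apply, smul_eq_mul]
        ring
      have hzO : z ∈ Orth n := by
        intro k
        have h1 := hx k
        have h2 := hy k
        rw [hzk]
        linarith
      have hzP : sqm z ∈ P := by
        have hm := hPc hx2 hy2 (a := 1 / 2) (b := 1 / 2) (by norm_num) (by norm_num) (by norm_num)
        refine hPd.2 _ hm _ (fun k => ?_) (fun k => ?_)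
        · simp only [sqm, Pi.zero_apply]
          positivity
        · simp only [sqm, Pi.add_apply, Pi.smul_apply, smul_eq_mul, hzk]
          nlinarith [sq_nonneg (x k - y k)]
      have hpx : 0 ≤ ∏ k, (2 * x k) := Finset.prod_nonneg fun k _ => by
        have := hx k; positivity
      have hpy : 0 ≤ ∏ k, (2 * y k) := Finset.prod_nonneg fun k _ => by
        have := hy k; positivity
      have hpz : 0 ≤ ∏ k, (2 * z k) := Finset.prod_nonneg fun k _ => by
        have := hzO k; positivity
      simp only [tr, indicator_of_mem hx, indicator_of_mem hy, indicator_of_mem hzO,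
        indicator_of_mem hx2, indicator_of_mem hy2, indicator_of_mem hzP]
      rw [← ENNReal.ofReal_mul hpx, ← ENNReal.ofReal_mul hpy, ← ENNReal.ofReal_mul hpz,
        ENNReal.ofReal_rpow_of_nonneg (by positivity) (by norm_num),
        ENNReal.ofReal_rpow_of_nonneg (by positivity) (by norm_num),
        ← ENNReal.ofReal_mul (by positivity)]
      apply ENNReal.ofReal_le_ofReal
      rw [← Real.mul_rpow (by positivity) (by positivity), ← Real.sqrt_eq_rpow]
      apply Real.sqrt_le_iff.2
      refine ⟨by positivity, ?_⟩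
      have key : ∏ k, (4 * x k * y k * Real.exp (Φ k (x k ^ 2) - Φ k (y k ^ 2))) ≤
          ∏ k, (Real.exp (C k) * (x k + y k) ^ 2) := by
        refine Finset.prod_le_prod (fun k _ => ?_) (fun k _ => h k _ _ (hx k) (hy k))
        have h1 := hx k
        have h2 := hy k
        positivity
      calc (∏ k, (2 * x k)) * F₁ (sqm x) * ((∏ k, (2 * y k)) * F₂ (sqm y))
          = ∏ k, (4 * x k * y k * Real.exp (Φ k (x k ^ 2) - Φ k (y k ^ 2))) := by
            simp only [hF₁, hF₂, sqm, ← Finset.sum_neg_distrib, Real.exp_sum,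
              ← Finset.prod_mul_distrib]
            refine Finset.prod_congr rfl fun k _ => ?_
            rw [sub_eq_add_neg, Real.exp_add]
            ring
        _ ≤ _ := key
        _ = _ := by
          simp only [hF₃, hzk]
          rw [mul_pow, ← Real.exp_nat_mul]
          have e : ((2 : ℕ) : ℝ) * ((∑ k, C k) / 2) = ∑ k, C k := by push_cast; ring
          rw [e, Real.exp_sum, ← Finset.prod_pow, ← Finset.prod_mul_distrib]
          refine Finset.prod_congr rfl fun k _ => ?_
          ring)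
  rw [tr_int hPd.1 hPk c1 (fun x => (Real.exp_pos _).le),
    tr_int hPd.1 hPk c2 (fun x => (Real.exp_pos _).le),
    tr_int hPd.1 hPk c3 (fun x => (Real.exp_pos _).le)] at hpl
  have hI1 : 0 ≤ ∫ x in P, F₁ x := integral_nonneg fun x => (Real.exp_pos _).le
  have hI2 : 0 ≤ ∫ x in P, F₂ x := integral_nonneg fun x => (Real.exp_pos _).le
  have hI3 : 0 ≤ ∫ x in P, F₃ x := integral_nonneg fun x => (Real.exp_pos _).le
  rw [ENNReal.ofReal_rpow_of_nonneg hI1 (by norm_num),
    ENNReal.ofReal_rpow_of_nonneg hI2 (by norm_num), ← ENNReal.ofReal_mul (by positivity),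
    ENNReal.ofReal_le_ofReal_iff hI3, ← Real.mul_rpow hI1 hI2, ← Real.sqrt_eq_rpow] at hpl
  have h4 := (Real.sqrt_le_iff.1 hpl).2
  refine h4.trans (le_of_eq ?_)
  simp only [hF₃]
  rw [setIntegral_const, smul_eq_mul, mul_pow, ← Real.exp_nat_mul, Measure.real]
  have e : ((2 : ℕ) : ℝ) * ((∑ k, C k) / 2) = ∑ k, C k := by push_cast; ring
  rw [e, mul_comm]

end Vale.Agent.P254.EX
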