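import Vale.Agent.P254.Unc.PL

/-! P254: fourth moment of a coordinate from a tail bound. -/

open MeasureTheory Set
open scoped ENNReal NNReal

namespace Vale.Agent.P254.EX

theorem tailT {n : ℕ} {K : Set (Fin n → ℝ)} (hc : Convex ℝ K) (hk : IsCompact K)
    (hV : 0 < (volume K).toReal) (k : Fin n) {r : ℝ} (hr : 0 < r)
    (hp : 400 * (volume (K ∩ {x | r < |x k|})).toReal ≤ (volume K).toReal) :
    ∫ x in K, x k ^ 4 ≤ 2 * r ^ 4 * (volume K).toReal := by
  have hKm : MeasurableSet K := hk.isClosed.measurableSet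
  have hfin : volume K ≠ ⊤ := hk.measure_lt_top.ne
  have hxk : Measurable fun x : Fin n → ℝ => x k := measurable_pi_apply k
  have hT0 : MeasurableSet {x : Fin n → ℝ | r < |x k|} :=
    measurableSet_lt measurable_const hxk.abs
  have hF0 : MeasurableSet {x : Fin n → ℝ | 3 * r < |x k|} :=
    measurableSet_lt measurable_const hxk.abs
  have hG0 : MeasurableSet {x : Fin n → ℝ | |x k| ≤ r} :=
    measurableSet_le hxk.abs measurable_const
  set T := K ∩ {x : Fin n → ℝ | r < |x k|} with hT
  set F := K ∩ {x : Fin n → ℝ | 3 * r < |x k|} with hF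
  set G := K ∩ {x : Fin n → ℝ | |x k| ≤ r} with hG
  have hTm : MeasurableSet T := hKm.inter hT0
  have hFm : MeasurableSet F := hKm.inter hF0
  have hGm : MeasurableSet G := hKm.inter hG0
  have hTK : T ⊆ K := inter_subset_left
  have hFK : F ⊆ K := inter_subset_left
  have hGK : G ⊆ K := inter_subset_left
  have hFT : F ⊆ T := by
    rintro x ⟨h1, h2⟩
    exact ⟨h1, lt_of_le_of_lt (by linarith) (show 3 * r < |x k| from h2)⟩
  have hi4 : IntegrableOn (fun x : Fin n → ℝ => x k ^ 4) K :=
    ((continuous_apply k).pow 4).continuousOn.integrableOn_compact hk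
  have hi2 : IntegrableOn (fun x : Fin n → ℝ => x k ^ 2) K :=
    ((continuous_apply k).pow 2).continuousOn.integrableOn_compact hk
  have hfT : volume T ≠ ⊤ := ne_top_of_le_ne_top hfin (measure_mono hTK)
  have hfG : volume G ≠ ⊤ := ne_top_of_le_ne_top hfin (measure_mono hGK)
  -- Prekopa-Leindler
  have key := Unc.pl_pi (s := 1 / 2) (t := 1 / 2) (by norm_num) (by norm_num) (by norm_num) n
    (F.indicator fun x => ENNReal.ofReal (x k ^ 4)) (G.indicator 1)
    (T.indicator fun x => ENNReal.ofReal (9 * x k ^ 2))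
    (((hxk.pow_const 4).ennreal_ofReal).indicator hFm) (measurable_one.indicator hGm)
    (((hxk.pow_const 2).const_mul 9).ennreal_ofReal.indicator hTm)
    (by
      intro x y
      by_cases hx : x ∈ F
      · by_cases hy : y ∈ G
        · have hz : (1 / 2 : ℝ) • x + (1 / 2 : ℝ) • y ∈ K :=
            hc hx.1 hy.1 (by norm_num) (by norm_num) (by norm_num)
          have hzk : ((1 / 2 : ℝ) • x + (1 / 2 : ℝ) • y) k = (x k + y k) / 2 := by
            simp only [Pi.add_apply, Pi.smul_apply, smul_eq_mul]; ring
          have hx2 : 3 * r < |x k| := hx.2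
          have hy2 : |y k| ≤ r := hy.2
          have h3 : |x k| ≤ 3 * |(x k + y k) / 2| := by
            rw [abs_div, abs_two]
            have : |x k| ≤ |x k + y k| + |y k| := by
              calc |x k| = |(x k + y k) - y k| := by ring_nf
                _ ≤ |x k + y k| + |y k| := abs_sub _ _
            linarith
          have hz2 : r < |((1 / 2 : ℝ) • x + (1 / 2 : ℝ) • y) k| := by
            rw [hzk]; linarith
          have hzT : (1 / 2 : ℝ) • x + (1 / 2 : ℝ) • y ∈ T := ⟨hz, hz2⟩
          rw [indicator_of_mem hx, indicator_of_mem hy, indicator_of_mem hzT, hzk]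
          simp only [Pi.one_apply, ENNReal.one_rpow, mul_one]
          rw [ENNReal.ofReal_rpow_of_nonneg (by positivity) (by norm_num)]
          apply ENNReal.ofReal_le_ofReal
          have e : (x k ^ 4) ^ (1 / 2 : ℝ) = x k ^ 2 := by
            rw [← Real.sqrt_eq_rpow, show x k ^ 4 = (x k ^ 2) ^ 2 by ring,
              Real.sqrt_sq (by positivity)]
          rw [e]
          have h4 : |x k| ^ 2 ≤ (3 * |(x k + y k) / 2|) ^ 2 :=
            pow_le_pow_left₀ (abs_nonneg _) h3 2
          rw [mul_pow, sq_abs, sq_abs] at h4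
          linarith
        · rw [indicator_of_notMem hy]; simp
      · rw [indicator_of_notMem hx]; simp)
  rw [lintegral_indicator hFm, lintegral_indicator hGm, lintegral_indicator hTm] at key
  simp only [Pi.one_apply, lintegral_one, Measure.restrict_apply MeasurableSet.univ,
    univ_inter] at key
  rw [← ofReal_integral_eq_lintegral_ofReal (hi4.mono_set hFK)
      (ae_of_all _ fun x => by positivity),
    ← ofReal_integral_eq_lintegral_ofReal ((hi2.mono_set hTK).const_mul 9)
      (ae_of_all _ fun x => by positivity), integral_const_mul] at key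
  set A := ∫ x in F, x k ^ 4 with hA
  set M := ∫ x in T, x k ^ 2 with hM
  set I := ∫ x in T, x k ^ 4 with hI
  have hA0 : 0 ≤ A := integral_nonneg fun x => by positivity
  have hM0 : 0 ≤ M := integral_nonneg fun x => by positivity
  have hI0 : 0 ≤ I := integral_nonneg fun x => by positivity
  set P := (volume T).toReal with hP
  set Q := (volume G).toReal with hQ
  set V := (volume K).toReal with hVd
  have hP0 : 0 ≤ P := ENNReal.toReal_nonneg
  have hQ0 : 0 ≤ Q := ENNReal.toReal_nonneg
  -- real form
  have k1 : A * Q ≤ (9 * M) ^ 2 := by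
    have hG' : volume G = ENNReal.ofReal Q := (ENNReal.ofReal_toReal hfG).symm
    rw [hG', ENNReal.ofReal_rpow_of_nonneg hA0 (by norm_num),
      ENNReal.ofReal_rpow_of_nonneg hQ0 (by norm_num), ← ENNReal.ofReal_mul (by positivity),
      ENNReal.ofReal_le_ofReal_iff (by positivity), ← Real.sqrt_eq_rpow, ← Real.sqrt_eq_rpow]
      at key
    have h1 : (√A * √Q) ^ 2 ≤ (9 * M) ^ 2 := pow_le_pow_left₀ (by positivity) key 2
    rwa [mul_pow, Real.sq_sqrt hA0, Real.sq_sqrt hQ0] at h1
  -- Cauchy-Schwarz
  have k2 : M ^ 2 ≤ P * I := by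
    have hq : ∀ l : ℝ, 0 ≤ P * (l * l) + (-2 * M) * l + I := by
      intro l
      have h1 : 0 ≤ ∫ x in T, (x k ^ 2 - l) ^ 2 := integral_nonneg fun x => by positivity
      have h2 : ∫ x in T, (x k ^ 2 - l) ^ 2 = I + (-2 * l) * M + l * l * P := by
        have e1 : ∀ x : Fin n → ℝ, (x k ^ 2 - l) ^ 2 = x k ^ 4 + (-2 * l) * x k ^ 2 + l * l := by
          intro x; ring
        have j4 : Integrable (fun x : Fin n → ℝ => x k ^ 4) (volume.restrict T) :=
          hi4.mono_set hTK
        have j2 : Integrable (fun x : Fin n → ℝ => -2 * l * x k ^ 2) (volume.restrict T) :=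
          (hi2.mono_set hTK).const_mul _
        have j0 : Integrable (fun _ : Fin n → ℝ => l * l) (volume.restrict T) :=
          integrableOn_const hfT
        have j42 : Integrable (fun x : Fin n → ℝ => x k ^ 4 + -2 * l * x k ^ 2)
          (volume.restrict T) := j4.add j2
        simp only [e1]
        rw [integral_add j42 j0, integral_add j4 j2, integral_const_mul, setIntegral_const,
          measureReal_def, smul_eq_mul]
        ring
      rw [h2] at h1
      linarith
    have := discrim_le_zero hq
    unfold discrim at this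
    linarith
  -- splitting
  have hPQ : P + Q = V := by
    have hd : Disjoint T G := by
      rw [Set.disjoint_left]
      rintro x ⟨_, h1⟩ ⟨_, h2⟩
      exact absurd (show r < |x k| from h1) (not_lt.2 h2)
    have hu : T ∪ G = K := by
      rw [hT, hG, ← inter_union_distrib_left]
      apply inter_eq_left.2
      intro x _
      rcases lt_or_ge r |x k| with h | h
      · exact Or.inl h
      · exact Or.inr h
    rw [hP, hQ, hVd, ← ENNReal.toReal_add hfT hfG, ← measure_union hd hGm, hu]
  have hIK : ∫ x in K, x k ^ 4 ≤ I + r ^ 4 * Q := by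
    have hd : Disjoint T G := by
      rw [Set.disjoint_left]
      rintro x ⟨_, h1⟩ ⟨_, h2⟩
      exact absurd (show r < |x k| from h1) (not_lt.2 h2)
    have hu : T ∪ G = K := by
      rw [hT, hG, ← inter_union_distrib_left]
      apply inter_eq_left.2
      intro x _
      rcases lt_or_ge r |x k| with h | h
      · exact Or.inl h
      · exact Or.inr h
    rw [← hu, setIntegral_union hd hGm (hi4.mono_set hTK) (hi4.mono_set hGK)]
    have : ∫ x in G, x k ^ 4 ≤ ∫ x in G, r ^ 4 := by
      refine setIntegral_mono_on (hi4.mono_set hGK) (integrableOn_const hfG) hGm ?_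
      intro x hx
      have h2 : |x k| ≤ r := hx.2
      calc x k ^ 4 = |x k| ^ 4 := by rw [Even.pow_abs (by decide)]
        _ ≤ r ^ 4 := pow_le_pow_left₀ (abs_nonneg _) h2 4
    rw [setIntegral_const, measureReal_def, smul_eq_mul] at this
    linarith
  have hIT : I ≤ A + 81 * r ^ 4 * P := by
    have hd : Disjoint F (T \ F) := disjoint_sdiff_right
    have hu : F ∪ (T \ F) = T := union_sdiff_cancel hFT
    have hTFm : MeasurableSet (T \ F) := hTm.diff hFm
    have hfTF : volume (T \ F) ≠ ⊤ := ne_top_of_le_ne_top hfT (measure_mono sdiff_subset)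
    rw [hI, ← hu, setIntegral_union hd hTFm (hi4.mono_set hFK)
      (hi4.mono_set (sdiff_subset.trans hTK))]
    have h1 : ∫ x in T \ F, x k ^ 4 ≤ ∫ x in T \ F, (3 * r) ^ 4 := by
      refine setIntegral_mono_on (hi4.mono_set (sdiff_subset.trans hTK))
        (integrableOn_const hfTF) hTFm ?_
      intro x hx
      have h2 : |x k| ≤ 3 * r := by
        by_contra hlt
        exact hx.2 ⟨hTK hx.1, not_le.1 hlt⟩
      calc x k ^ 4 = |x k| ^ 4 := by rw [Even.pow_abs (by decide)]
        _ ≤ (3 * r) ^ 4 := pow_le_pow_left₀ (abs_nonneg _) h2 4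
    rw [setIntegral_const, measureReal_def, smul_eq_mul] at h1
    have h2 : (volume (T \ F)).toReal ≤ P :=
      ENNReal.toReal_mono hfT (measure_mono sdiff_subset)
    have h3 : (volume (T \ F)).toReal * (3 * r) ^ 4 ≤ P * (3 * r) ^ 4 := by gcongr
    have h4 : P * (3 * r) ^ 4 = 81 * r ^ 4 * P := by ring
    linarith
  -- conclusion
  have hQ1 : 399 * V ≤ 400 * Q := by linarith
  have hr4 : 0 < r ^ 4 := by positivity
  have h1 : A * Q ≤ 81 * (P * I) := by nlinarith
  have h2 : 399 * (A * V) ≤ 81 * (V * I) := by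
    have e1 : A * (399 * V) ≤ A * (400 * Q) := by gcongr
    have e2 : 400 * P * I ≤ V * I := by gcongr
    nlinarith
  have h3 : 399 * A ≤ 81 * I := by
    have e1 : (399 * A) * V ≤ (81 * I) * V := by linarith
    exact le_of_mul_le_mul_right e1 hV
  have h4 : 318 * I ≤ 399 * 81 * r ^ 4 * P := by linarith
  have h5 : 400 * 318 * I ≤ 399 * 81 * r ^ 4 * V := by
    have : 399 * 81 * r ^ 4 * (400 * P) ≤ 399 * 81 * r ^ 4 * V := by gcongr
    linarith
  have h6 : r ^ 4 * Q ≤ r ^ 4 * V := by
    have : Q ≤ V := by linarith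
    gcongr
  nlinarith [mul_pos hr4 hV]

end Vale.Agent.P254.EX
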