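import Vale.Agent.P254.Unc.PL

/-! P254, Theorem X, leaf (T): a one-dimensional marginal of a convex body with small tail
probability has its fourth moment controlled (Prekopa-Leindler + Cauchy-Schwarz). -/

open MeasureTheory Set
open scoped ENNReal

namespace Vale.Agent.P254.EX

theorem meas_abs_gt {n : ℕ} (k : Fin n) (r : ℝ) :
    MeasurableSet {x : Fin n → ℝ | r < |x k|} :=
  measurableSet_lt measurable_const (measurable_pi_apply k).abs

theorem meas_abs_le {n : ℕ} (k : Fin n) (r : ℝ) :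
    MeasurableSet {x : Fin n → ℝ | |x k| ≤ r} :=
  measurableSet_le (measurable_pi_apply k).abs measurable_const

theorem pow_intOn {n : ℕ} {K : Set (Fin n → ℝ)} (hk : IsCompact K) (k : Fin n) (m : ℕ) :
    IntegrableOn (fun x : Fin n → ℝ => x k ^ m) K :=
  (by fun_prop : Continuous fun x : Fin n → ℝ => x k ^ m).continuousOn.integrableOn_compact hk

/-- Cauchy-Schwarz for a finite measure: `(∫ u)² ≤ μ(univ) ∫ u²`. -/
theorem cs_sq {α : Type*} [MeasurableSpace α] {μ : Measure α} [IsFiniteMeasure μ] {u : α → ℝ}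
    (h1 : Integrable u μ) (h2 : Integrable (fun x => u x ^ 2) μ) :
    (∫ x, u x ∂μ) ^ 2 ≤ (μ univ).toReal * ∫ x, u x ^ 2 ∂μ := by
  set W := (μ univ).toReal with hW
  set m := ∫ x, u x ∂μ with hm
  set Q := ∫ x, u x ^ 2 ∂μ with hQ
  have hc : Integrable (fun _ : α => m ^ 2) μ := integrable_const _
  have h0 : 0 ≤ ∫ x, (W * u x - m) ^ 2 ∂μ := integral_nonneg fun x => sq_nonneg _
  have h3 : ∫ x, (W * u x - m) ^ 2 ∂μ = W ^ 2 * Q - 2 * W * m * m + m ^ 2 * W := by
    have e : (fun x => (W * u x - m) ^ 2) =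
        fun x => (W ^ 2 * u x ^ 2 - (2 * W * m) * u x) + m ^ 2 := by
      funext x; ring
    have i1 : Integrable (fun x => W ^ 2 * u x ^ 2) μ := h2.const_mul _
    have i2 : Integrable (fun x => (2 * W * m) * u x) μ := h1.const_mul _
    have i3 : Integrable (fun x => W ^ 2 * u x ^ 2 - (2 * W * m) * u x) μ := i1.sub i2
    rw [e, integral_add i3 hc, integral_sub i1 i2, integral_const_mul, integral_const_mul,
      integral_const]
    simp only [smul_eq_mul, Measure.real, ← hW, ← hm, ← hQ]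
    ring
  rw [h3] at h0
  have hW0 : 0 ≤ W := ENNReal.toReal_nonneg
  rcases hW0.eq_or_lt with h | h
  · have hμ : μ = 0 := by
      rw [hW, eq_comm, ENNReal.toReal_eq_zero_iff] at h
      rcases h with h | h
      · exact Measure.measure_univ_eq_zero.1 h
      · exact absurd h (measure_ne_top μ _)
    have hm0 : m = 0 := by simp [hm, hμ]
    rw [← h, hm0]
    simp
  · by_contra hcon
    push Not at hcon
    nlinarith [mul_pos h (sub_pos.2 hcon)]

/-- Prekopa-Leindler step. -/
theorem tail_pl {n : ℕ} {K : Set (Fin n → ℝ)} (hc : Convex ℝ K) (hk : IsCompact K) (k : Fin n)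
    {r : ℝ} (_hr : 0 < r) :
    (∫ x in K ∩ {x | 3 * r < |x k|}, x k ^ 4) * (volume (K ∩ {x | |x k| ≤ r})).toReal ≤
      (9 * ∫ x in K ∩ {x | r < |x k|}, x k ^ 2) ^ 2 := by
  have hKm := hk.measurableSet
  have hA : MeasurableSet (K ∩ {x : Fin n → ℝ | 3 * r < |x k|}) := hKm.inter (meas_abs_gt k _)
  have hB : MeasurableSet (K ∩ {x : Fin n → ℝ | |x k| ≤ r}) := hKm.inter (meas_abs_le k _)
  have hC : MeasurableSet (K ∩ {x : Fin n → ℝ | r < |x k|}) := hKm.inter (meas_abs_gt k _)
  have hKf : volume K ≠ ∞ := hk.measure_lt_top.ne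
  have hm : ∀ j : ℕ, Measurable fun x : Fin n → ℝ => ENNReal.ofReal (x k ^ j) := fun j =>
    ENNReal.measurable_ofReal.comp ((measurable_pi_apply k).pow_const j)
  have hpl := Unc.pl_pi (s := 1 / 2) (t := 1 / 2) (by norm_num) (by norm_num) (by norm_num) n
    ((K ∩ {x : Fin n → ℝ | 3 * r < |x k|}).indicator fun x => ENNReal.ofReal (x k ^ 4))
    ((K ∩ {x : Fin n → ℝ | |x k| ≤ r}).indicator 1)
    ((K ∩ {x : Fin n → ℝ | r < |x k|}).indicator fun x => 9 * ENNReal.ofReal (x k ^ 2))
    ((hm 4).indicator hA) (measurable_one.indicator hB) (((hm 2).const_mul 9).indicator hC)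
    (by
      intro x y
      by_cases hx : x ∈ K ∩ {x : Fin n → ℝ | 3 * r < |x k|}
      · by_cases hy : y ∈ K ∩ {x : Fin n → ℝ | |x k| ≤ r}
        · have hx2 : 3 * r < |x k| := hx.2
          have hy2 : |y k| ≤ r := hy.2
          have hzk : ((1 / 2 : ℝ) • x + (1 / 2 : ℝ) • y) k = (x k + y k) / 2 := by
            simp only [Pi.add_apply, Pi.smul_apply, smul_eq_mul]; ring
          have habs : |x k| ≤ |x k + y k| + |y k| := by
            have := abs_sub (x k + y k) (y k)
            rwa [add_sub_cancel_right] at this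
          have hz : ((1 / 2 : ℝ) • x + (1 / 2 : ℝ) • y) ∈ K ∩ {x : Fin n → ℝ | r < |x k|} := by
            refine ⟨hc hx.1 hy.1 (by norm_num) (by norm_num) (by norm_num), ?_⟩
            show r < |((1 / 2 : ℝ) • x + (1 / 2 : ℝ) • y) k|
            rw [hzk, abs_div, abs_two, lt_div_iff₀ (by norm_num)]
            linarith
          rw [indicator_of_mem hx, indicator_of_mem hy, indicator_of_mem hz, Pi.one_apply,
            ENNReal.one_rpow, mul_one, hzk]
          have h9 : (9 : ℝ≥0∞) * ENNReal.ofReal (((x k + y k) / 2) ^ 2) =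
              ENNReal.ofReal (9 * ((x k + y k) / 2) ^ 2) := by
            rw [ENNReal.ofReal_mul (by norm_num)]
            norm_num
          have h4 : x k ^ 4 = (x k ^ 2) ^ 2 := by ring
          rw [h9, ENNReal.ofReal_rpow_of_nonneg (by positivity) (by norm_num), h4,
            ← Real.sqrt_eq_rpow, Real.sqrt_sq (by positivity)]
          apply ENNReal.ofReal_le_ofReal
          have h5 : |x k| ≤ 3 * (|x k + y k| / 2) := by linarith
          calc x k ^ 2 = |x k| ^ 2 := (sq_abs _).symm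
            _ ≤ (3 * (|x k + y k| / 2)) ^ 2 := by gcongr
            _ = 9 * (|x k + y k| ^ 2) / 4 := by ring
            _ = 9 * ((x k + y k) / 2) ^ 2 := by rw [sq_abs]; ring
        · rw [indicator_of_notMem hy, ENNReal.zero_rpow_of_pos (by norm_num), mul_zero]
          exact zero_le
      · rw [indicator_of_notMem hx, ENNReal.zero_rpow_of_pos (by norm_num), zero_mul]
        exact zero_le)
  rw [lintegral_indicator hA, lintegral_indicator_one hB, lintegral_indicator hC,
    lintegral_const_mul 9 (hm 2),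
    ← ofReal_integral_eq_lintegral_ofReal ((pow_intOn hk k 4).mono_set inter_subset_left)
      (Filter.Eventually.of_forall fun x => by positivity),
    ← ofReal_integral_eq_lintegral_ofReal ((pow_intOn hk k 2).mono_set inter_subset_left)
      (Filter.Eventually.of_forall fun x => by positivity)] at hpl
  set M := ∫ x in K ∩ {x : Fin n → ℝ | 3 * r < |x k|}, x k ^ 4 with hM
  set S := ∫ x in K ∩ {x : Fin n → ℝ | r < |x k|}, x k ^ 2 with hS
  have hM0 : 0 ≤ M := integral_nonneg fun x => by positivity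
  have hS0 : 0 ≤ S := integral_nonneg fun x => by positivity
  have hBf : volume (K ∩ {x : Fin n → ℝ | |x k| ≤ r}) ≠ ∞ :=
    ne_top_of_le_ne_top hKf (measure_mono inter_subset_left)
  rw [← ENNReal.ofReal_toReal hBf] at hpl
  set a := (volume (K ∩ {x : Fin n → ℝ | |x k| ≤ r})).toReal with ha
  have ha0 : 0 ≤ a := ENNReal.toReal_nonneg
  have h9 : (9 : ℝ≥0∞) * ENNReal.ofReal S = ENNReal.ofReal (9 * S) := by
    rw [ENNReal.ofReal_mul (by norm_num)]
    norm_num
  rw [h9, ENNReal.ofReal_rpow_of_nonneg hM0 (by norm_num),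
    ENNReal.ofReal_rpow_of_nonneg ha0 (by norm_num),
    ← ENNReal.ofReal_mul (by positivity), ENNReal.ofReal_le_ofReal_iff (by positivity),
    ← Real.sqrt_eq_rpow, ← Real.sqrt_eq_rpow] at hpl
  calc M * a = (Real.sqrt M * Real.sqrt a) ^ 2 := by
        rw [mul_pow, Real.sq_sqrt hM0, Real.sq_sqrt ha0]
    _ ≤ (9 * S) ^ 2 := by gcongr

/-- Leaf (T). -/
theorem tailT {n : ℕ} {K : Set (Fin n → ℝ)} (hc : Convex ℝ K) (hk : IsCompact K)
    (hV : 0 < (volume K).toReal) (k : Fin n) {r : ℝ} (hr : 0 < r)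
    (hp : 400 * (volume (K ∩ {x | r < |x k|})).toReal ≤ (volume K).toReal) :
    ∫ x in K, x k ^ 4 ≤ 2 * r ^ 4 * (volume K).toReal := by
  have hKm := hk.measurableSet
  have hA : MeasurableSet (K ∩ {x : Fin n → ℝ | 3 * r < |x k|}) := hKm.inter (meas_abs_gt k _)
  have hB : MeasurableSet (K ∩ {x : Fin n → ℝ | |x k| ≤ r}) := hKm.inter (meas_abs_le k _)
  have hC : MeasurableSet (K ∩ {x : Fin n → ℝ | r < |x k|}) := hKm.inter (meas_abs_gt k _)
  have hKf : volume K ≠ ∞ := hk.measure_lt_top.ne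
  have hBf : volume (K ∩ {x : Fin n → ℝ | |x k| ≤ r}) ≠ ∞ :=
    ne_top_of_le_ne_top hKf (measure_mono inter_subset_left)
  have hCf : volume (K ∩ {x : Fin n → ℝ | r < |x k|}) ≠ ∞ :=
    ne_top_of_le_ne_top hKf (measure_mono inter_subset_left)
  have h1 := tail_pl hc hk k hr
  -- Cauchy-Schwarz
  have h2 : (∫ x in K ∩ {x : Fin n → ℝ | r < |x k|}, x k ^ 2) ^ 2 ≤
      (volume (K ∩ {x : Fin n → ℝ | r < |x k|})).toReal *
        ∫ x in K ∩ {x : Fin n → ℝ | r < |x k|}, x k ^ 4 := by
    have : IsFiniteMeasure (volume.restrict (K ∩ {x : Fin n → ℝ | r < |x k|})) :=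
      ⟨by rw [Measure.restrict_apply_univ]; exact lt_top_iff_ne_top.2 hCf⟩
    have := cs_sq (μ := volume.restrict (K ∩ {x : Fin n → ℝ | r < |x k|}))
      (u := fun x => x k ^ 2) ((pow_intOn hk k 2).mono_set inter_subset_left) (by
        have := (pow_intOn hk k 4).mono_set (inter_subset_left (t := {x : Fin n → ℝ | r < |x k|}))
        refine this.congr (Filter.Eventually.of_forall fun x => ?_)
        show x k ^ 4 = (x k ^ 2) ^ 2
        ring)
    rw [Measure.restrict_apply_univ] at this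
    refine this.trans (le_of_eq ?_)
    congr 1
    refine integral_congr_ae (Filter.Eventually.of_forall fun x => ?_)
    show (x k ^ 2) ^ 2 = x k ^ 4
    ring
  -- split of C
  have hsplitC : ∫ x in K ∩ {x : Fin n → ℝ | r < |x k|}, x k ^ 4 ≤
      (∫ x in K ∩ {x : Fin n → ℝ | 3 * r < |x k|}, x k ^ 4) +
        81 * r ^ 4 * (volume (K ∩ {x : Fin n → ℝ | r < |x k|})).toReal := by
    have e : ∀ x ∈ K ∩ {x : Fin n → ℝ | r < |x k|}, x k ^ 4 ≤
        (K ∩ {x : Fin n → ℝ | 3 * r < |x k|}).indicator (fun x => x k ^ 4) x + 81 * r ^ 4 := by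
      intro x hx
      by_cases h : 3 * r < |x k|
      · rw [indicator_of_mem (show x ∈ K ∩ {x : Fin n → ℝ | 3 * r < |x k|} from ⟨hx.1, h⟩)]
        have : 0 ≤ 81 * r ^ 4 := by positivity
        linarith
      · rw [indicator_of_notMem (fun h' => h h'.2), zero_add]
        push Not at h
        calc x k ^ 4 = |x k| ^ 4 := by
              rw [show (4 : ℕ) = 2 * 2 from rfl, pow_mul, pow_mul, sq_abs]
          _ ≤ (3 * r) ^ 4 := by gcongr
          _ = 81 * r ^ 4 := by ring
    have hi1 : IntegrableOn ((K ∩ {x : Fin n → ℝ | 3 * r < |x k|}).indicator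
        fun x => x k ^ 4) (K ∩ {x : Fin n → ℝ | r < |x k|}) :=
      ((pow_intOn hk k 4).mono_set inter_subset_left).indicator hA
    have hi2 : IntegrableOn (fun _ : Fin n → ℝ => 81 * r ^ 4)
        (K ∩ {x : Fin n → ℝ | r < |x k|}) := integrableOn_const hCf
    calc ∫ x in K ∩ {x : Fin n → ℝ | r < |x k|}, x k ^ 4 ≤
        ∫ x in K ∩ {x : Fin n → ℝ | r < |x k|},
          ((K ∩ {x : Fin n → ℝ | 3 * r < |x k|}).indicator (fun x => x k ^ 4) x +
            81 * r ^ 4) :=
        setIntegral_mono_on ((pow_intOn hk k 4).mono_set inter_subset_left) (hi1.add hi2) hC e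
      _ = (∫ x in K ∩ {x : Fin n → ℝ | r < |x k|},
            (K ∩ {x : Fin n → ℝ | 3 * r < |x k|}).indicator (fun x => x k ^ 4) x) +
            ∫ _ in K ∩ {x : Fin n → ℝ | r < |x k|}, 81 * r ^ 4 := integral_add hi1 hi2
      _ = _ := by
        rw [setIntegral_indicator hA, setIntegral_const]
        have hsub : (K ∩ {x : Fin n → ℝ | r < |x k|}) ∩ (K ∩ {x : Fin n → ℝ | 3 * r < |x k|}) =
            K ∩ {x : Fin n → ℝ | 3 * r < |x k|} := by
          apply inter_eq_right.2
          rintro x ⟨hx1, hx2⟩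
          have hx2' : 3 * r < |x k| := hx2
          exact ⟨hx1, show r < |x k| by linarith⟩
        rw [hsub, smul_eq_mul, Measure.real]
        ring
  -- split of K
  have hU : K = (K ∩ {x : Fin n → ℝ | |x k| ≤ r}) ∪ (K ∩ {x : Fin n → ℝ | r < |x k|}) := by
    rw [← inter_union_distrib_left]
    refine (inter_eq_left.2 fun x _ => ?_).symm
    exact le_or_gt (|x k|) r
  have hD : Disjoint (K ∩ {x : Fin n → ℝ | |x k| ≤ r}) (K ∩ {x : Fin n → ℝ | r < |x k|}) := by
    rw [Set.disjoint_left]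
    rintro x ⟨-, h1⟩ ⟨-, h2⟩
    exact absurd (show |x k| ≤ r from h1) (not_le.2 h2)
  have hsplitK : ∫ x in K, x k ^ 4 = (∫ x in K ∩ {x : Fin n → ℝ | |x k| ≤ r}, x k ^ 4) +
      ∫ x in K ∩ {x : Fin n → ℝ | r < |x k|}, x k ^ 4 := by
    conv_lhs => rw [hU]
    exact setIntegral_union hD hC ((pow_intOn hk k 4).mono_set inter_subset_left)
      ((pow_intOn hk k 4).mono_set inter_subset_left)
  have hVs : (volume K).toReal = (volume (K ∩ {x : Fin n → ℝ | |x k| ≤ r})).toReal +
      (volume (K ∩ {x : Fin n → ℝ | r < |x k|})).toReal := by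
    conv_lhs => rw [hU]
    rw [measure_union hD hC, ENNReal.toReal_add hBf hCf]
  have hBle : ∫ x in K ∩ {x : Fin n → ℝ | |x k| ≤ r}, x k ^ 4 ≤
      r ^ 4 * (volume (K ∩ {x : Fin n → ℝ | |x k| ≤ r})).toReal := by
    calc ∫ x in K ∩ {x : Fin n → ℝ | |x k| ≤ r}, x k ^ 4 ≤
        ∫ _ in K ∩ {x : Fin n → ℝ | |x k| ≤ r}, r ^ 4 :=
        setIntegral_mono_on ((pow_intOn hk k 4).mono_set inter_subset_left)
          (integrableOn_const hBf) hB (by
            rintro x ⟨-, hx⟩
            have hx' : |x k| ≤ r := hx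
            calc x k ^ 4 = |x k| ^ 4 := by
                  rw [show (4 : ℕ) = 2 * 2 from rfl, pow_mul, pow_mul, sq_abs]
              _ ≤ r ^ 4 := by gcongr)
      _ = _ := by
        rw [setIntegral_const, smul_eq_mul, Measure.real]
        ring
  rw [hsplitK, hVs]
  rw [hVs] at hp hV
  set M := ∫ x in K ∩ {x : Fin n → ℝ | 3 * r < |x k|}, x k ^ 4 with hM
  set S := ∫ x in K ∩ {x : Fin n → ℝ | r < |x k|}, x k ^ 2 with hS
  set Q := ∫ x in K ∩ {x : Fin n → ℝ | r < |x k|}, x k ^ 4 with hQ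
  set a := (volume (K ∩ {x : Fin n → ℝ | |x k| ≤ r})).toReal with ha
  set w := (volume (K ∩ {x : Fin n → ℝ | r < |x k|})).toReal with hw
  have hM0 : 0 ≤ M := integral_nonneg fun x => by positivity
  have hw0 : 0 ≤ w := ENNReal.toReal_nonneg
  have ha0 : 0 < a := by linarith
  have hwa : 399 * w ≤ a := by linarith
  have hr4 : 0 < r ^ 4 := by positivity
  -- M a ≤ 81 w (M + 81 r^4 w)
  have h3 : M * a ≤ 81 * w * (M + 81 * r ^ 4 * w) := by
    calc M * a ≤ (9 * S) ^ 2 := h1
      _ = 81 * S ^ 2 := by ring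
      _ ≤ 81 * (w * Q) := by linarith
      _ ≤ 81 * (w * (M + 81 * r ^ 4 * w)) := by gcongr
      _ = _ := by ring
  have h4 : M * (318 / 399 * a) ≤ 6561 * r ^ 4 * w * (a / 399) := by
    have e1 : M * (81 * w) ≤ M * (81 / 399 * a) := by
      apply mul_le_mul_of_nonneg_left _ hM0
      linarith
    have e2 : 6561 * r ^ 4 * w * w ≤ 6561 * r ^ 4 * w * (a / 399) := by
      apply mul_le_mul_of_nonneg_left _ (by positivity)
      linarith
    nlinarith
  have h5 : M * 318 ≤ 6561 * r ^ 4 * w := by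
    have : M * 318 * a ≤ 6561 * r ^ 4 * w * a := by linarith
    exact le_of_mul_le_mul_right this ha0
  have h6 : r ^ 4 * w * 399 ≤ r ^ 4 * a := by
    have := mul_le_mul_of_nonneg_left hwa hr4.le
    linarith
  nlinarith

end Vale.Agent.P254.EX
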