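import Vale.Agent.P254.EX.Core
import Vale.Agent.P254.Unc.Top254

/-!
P254: the strong isotropic constant conjecture for the bodies at a dimension-free distance from the
unconditional bodies.
-/

open MeasureTheory Set Matrix

namespace Vale.Agent.P254.EX

open Unc Unc.FB

variable {n : ℕ}

lemma exp_le : Real.exp (245 / 10000) * ((1 - 1 / 10 ^ 24 : ℝ)⁻¹) ^ 2 ≤ 1026 / 1000 := by
  have h := Real.add_one_le_exp (-(245 / 10000) : ℝ)
  rw [Real.exp_neg] at h
  have h1 : Real.exp (245 / 10000) ≤ (1 - 245 / 10000)⁻¹ := by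
    rw [le_inv_comm₀ (Real.exp_pos _) (by norm_num)]
    linarith
  calc Real.exp (245 / 10000) * ((1 - 1 / 10 ^ 24 : ℝ)⁻¹) ^ 2
      ≤ (1 - 245 / 10000)⁻¹ * ((1 - 1 / 10 ^ 24 : ℝ)⁻¹) ^ 2 := by gcongr
    _ ≤ 1026 / 1000 := by norm_num

theorem iso_lt (hUNC : UNCR n) (hn : 2 ≤ n) {U K S : Set (Fin n → ℝ)} (hU : IsConvexBody U)
    (hu : Uncond U) (hK : IsConvexBody K) (hS : IsSimplex S) (hKU : K ⊆ U)
    (hq : (1 - 1 / 10 ^ 24) ^ n * (volume U).toReal ≤ (volume K).toReal) :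
    isoConst K < isoConst S := by
  have hn0 : 0 < n := by omega
  have hVK := volume_pos_of_body hK
  have hVU := volume_pos_of_body hU
  have hcore := core hU hu hK hKU hq
  have hdet := det_le_prod_mom hn0 hK
  have hbody := unc_body hUNC hU hu
  have hdU : (covMatrix U).det = ∏ k, mom U k := by
    rw [cov_diag hu, det_diagonal]
    rfl
  have h1 : (covMatrix K).det ≤ Real.exp (n * (245 / 10000)) * (covMatrix U).det := by
    rw [hdU]
    exact hdet.trans hcore
  set V := (volume K).toReal with hVd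
  set W := (volume U).toReal with hWd
  set q : ℝ := 1 - 1 / 10 ^ 24 with hqd
  have hq0 : 0 < q := by rw [hqd]; norm_num
  have hr : W / V ≤ (q⁻¹) ^ n := by
    rw [inv_pow, div_le_iff₀ hVK, inv_mul_eq_div, le_div_iff₀ (by positivity), mul_comm]
    exact hq
  have hr0 : 0 < W / V := div_pos hVU hVK
  have hdU0 : 0 ≤ (covMatrix U).det / W ^ 2 :=
    div_nonneg (covMatrix_posSemidef hU.2.1).det_nonneg (by positivity)
  have h3 : (covMatrix K).det / V ^ 2 ≤
      Real.exp (n * (245 / 10000)) * (W / V) ^ 2 * ((covMatrix U).det / W ^ 2) := by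
    rw [div_le_iff₀ (by positivity)]
    refine h1.trans (le_of_eq ?_)
    field_simp
  have h4 : (covMatrix K).det / V ^ 2
      ≤ (1026 / 1000) ^ n * (((n : ℝ) + 1) / (8 * (n + 2))) ^ n := by
    refine h3.trans ?_
    refine mul_le_mul ?_ hbody hdU0 (by positivity)
    calc Real.exp (n * (245 / 10000)) * (W / V) ^ 2
        ≤ Real.exp (n * (245 / 10000)) * ((q⁻¹) ^ n) ^ 2 := by
          gcongr
      _ = (Real.exp (245 / 10000) * (q⁻¹) ^ 2) ^ n := by
          rw [Real.exp_nat_mul, mul_pow, ← pow_mul, ← pow_mul, mul_comm n 2]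
      _ ≤ (1026 / 1000) ^ n := by
          refine pow_le_pow_left₀ (by positivity) ?_ n
          rw [hqd]
          exact exp_le
  have h5 : ∀ θ : ℝ, ((n : ℝ) + 1) ^ (2 * n + 1) * θ < 8 ^ n * (n.factorial : ℝ) ^ 2 →
      θ * (((n : ℝ) + 1) / (8 * (n + 2))) ^ n < FV.simpC n := by
    intro θ hθ
    unfold FV.simpC
    rw [div_pow, mul_pow, mul_pow, lt_div_iff₀ (by positivity), ← mul_div_assoc,
      div_mul_eq_mul_div, div_lt_iff₀ (by positivity)]
    have e1 : θ * ((n : ℝ) + 1) ^ n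
        * (((n : ℝ) + 1) * (((n : ℝ) + 1) ^ n * ((n : ℝ) + 2) ^ n))
        = ((n : ℝ) + 1) ^ (2 * n + 1) * θ * ((n : ℝ) + 2) ^ n := by
      ring
    have e2 : (n.factorial : ℝ) ^ 2 * (8 ^ n * ((n : ℝ) + 2) ^ n)
        = 8 ^ n * (n.factorial : ℝ) ^ 2 * ((n : ℝ) + 2) ^ n := by ring
    rw [e1, e2]
    exact mul_lt_mul_of_pos_right hθ (by positivity)
  rw [isoConst_simplex hS, isoConst, isoConst, FV.det_simplex (by omega)]
  have hn' : (0 : ℝ) < n := by exact_mod_cast hn0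
  exact Real.rpow_lt_rpow (div_nonneg (covMatrix_posSemidef hK.2.1).det_nonneg (by positivity))
    (h4.trans_lt (h5 _ (pow_lt_fac hn))) (by positivity)

/-- the affine version -/
theorem near_exp (hUNC : UNCR n) (hn : 2 ≤ n) {U K S : Set (Fin n → ℝ)} (hU : IsConvexBody U)
    (hu : Uncond U) (hK : IsConvexBody K) (hS : IsSimplex S) {A : Matrix (Fin n) (Fin n) ℝ}
    (hA : A.det ≠ 0) {b : Fin n → ℝ} (hKU : K ⊆ aff A b '' U)
    (hq : (1 - 1 / 10 ^ 24) ^ n * (volume (aff A b '' U)).toReal ≤ (volume K).toReal) :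
    isoConst K < isoConst S := by
  have hunit : IsUnit A.det := isUnit_iff_ne_zero.mpr hA
  have hu' : (A⁻¹).det ≠ 0 := by
    rw [det_nonsing_inv, Ring.inverse_eq_inv']
    exact inv_ne_zero hA
  set K' : Set (Fin n → ℝ) := aff A⁻¹ (-(A⁻¹ *ᵥ b)) '' K with hK'
  have hback : ∀ x, aff A⁻¹ (-(A⁻¹ *ᵥ b)) (aff A b x) = x := by
    intro x
    rw [aff_aff, nonsing_inv_mul _ hunit]
    simp [aff]
  have hforth : ∀ x, aff A b (aff A⁻¹ (-(A⁻¹ *ᵥ b)) x) = x := by
    intro x
    rw [aff_aff, mul_nonsing_inv _ hunit]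
    simp only [aff, mulVec_neg, mulVec_mulVec, mul_nonsing_inv _ hunit, one_mulVec]
    abel
  have e : K = aff A b '' K' := by
    rw [hK', ← image_comp]
    have : aff A b ∘ aff A⁻¹ (-(A⁻¹ *ᵥ b)) = id := by
      ext1 x
      exact hforth x
    rw [this, image_id]
  have hK'b : IsConvexBody K' := isConvexBody_aff_image hu' _ hK
  have hsub : K' ⊆ U := by
    rintro _ ⟨x, hx, rfl⟩
    obtain ⟨u, hu1, rfl⟩ := hKU hx
    rw [hback]
    exact hu1
  have hdpos : 0 < |A.det| := abs_pos.mpr hA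
  have hvol : (1 - 1 / 10 ^ 24) ^ n * (volume U).toReal ≤ (volume K').toReal := by
    rw [e, volume_aff_image hA b hU.2.1.measurableSet,
      volume_aff_image hA b hK'b.2.1.measurableSet] at hq
    have h1 : |A.det| * ((1 - 1 / 10 ^ 24) ^ n * (volume U).toReal) ≤
        |A.det| * (volume K').toReal := by
      calc _ = (1 - 1 / 10 ^ 24) ^ n * (|A.det| * (volume U).toReal) := by ring
        _ ≤ _ := hq
    exact le_of_mul_le_mul_left h1 hdpos
  have h := iso_lt hUNC hn hU hu hK'b hS hsub hvol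
  rw [e, isoConst_aff_image hA b hK'b.2.1 (volume_pos_of_body hK'b).ne']
  exact h

/-- The strong isotropic constant conjecture near the unconditional bodies. -/
theorem top_exp (hUNC : UNCR n) (hn : 1 ≤ n) {K S : Set (Fin n → ℝ)}
    (hK : IsConvexBody K) (hS : IsSimplex S)
    (h : ∃ (A : Matrix (Fin n) (Fin n) ℝ) (b : Fin n → ℝ) (U : Set (Fin n → ℝ)), A.det ≠ 0 ∧
      IsConvexBody U ∧ Uncond U ∧ K ⊆ (fun x => A *ᵥ x + b) '' U ∧
      min (79 / 80) ((1 - 1 / 10 ^ 24) ^ n) * (volume ((fun x => A *ᵥ x + b) '' U)).toReal ≤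
        (volume K).toReal) :
    isoConst K ≤ isoConst S ∧ (isoConst K = isoConst S ↔ IsSimplex K) ∧
      (2 ≤ n → isoConst K < isoConst S) := by
  obtain ⟨A, b, U, hA, hU, hu, hKU, hvol⟩ := h
  rcases min_choice (79 / 80 : ℝ) ((1 - 1 / 10 ^ 24) ^ n) with hm | hm
  · rw [hm] at hvol
    exact top_near hUNC hn hK hS ⟨A, b, U, hA, hU, hu, hKU, hvol⟩
  · rw [hm] at hvol
    rcases Nat.lt_or_ge n 2 with h2 | h2
    · have h1 : n = 1 := by omega
      subst h1
      have hKs := isSimplex_of_dim_one hK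
      have e : isoConst K = isoConst S := by rw [isoConst_simplex hKs, isoConst_simplex hS]
      exact ⟨e.le, ⟨fun _ => hKs, fun _ => e⟩, fun h => absurd h (by norm_num)⟩
    · have hlt := near_exp hUNC h2 hU hu hK hS hA hKU hvol
      refine ⟨hlt.le, ⟨fun h' => absurd h' hlt.ne, fun h' => ?_⟩, fun _ => hlt⟩
      rw [isoConst_simplex h', isoConst_simplex hS]

end Vale.Agent.P254.EX
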